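import Mathlib
import Vale.Agent.P109.Stair

/-! The torus of dimension `2 (n + 1)`, split into two halves, for solenoid rotations (P109). -/

open MeasureTheory Filter Topology Set
open scoped ContDiff

namespace Vale.Agent.P109.Sol

variable (n : ℕ)

abbrev V := Fin (n + 1) → ℝ
abbrev E := (Fin (n + 1) → ℝ) × (Fin (n + 1) → ℝ)
abbrev Tr := Fin (n + 1) → UnitAddCircle
abbrev TT := (Fin (n + 1) → UnitAddCircle) × (Fin (n + 1) → UnitAddCircle)
abbrev Mat := Matrix (Fin (n + 1)) (Fin (n + 1)) ℤ

variable {n}

instance : (volume : Measure (Tr n)).IsAddHaarMeasure := by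
  rw [volume_pi]; infer_instance

instance : IsProbabilityMeasure (volume : Measure (TT n)) := by
  constructor
  rw [Measure.volume_eq_prod, ← univ_prod_univ, Measure.prod_prod, volume_pi, Measure.pi_univ]
  simp

instance : (volume : Measure (TT n)).IsAddHaarMeasure := by
  rw [Measure.volume_eq_prod]
  exact @Measure.prod.instIsAddHaarMeasure (Tr n) _ _ _ (Tr n) _ _ _ volume volume
    inferInstance inferInstance inferInstance inferInstance inferInstance inferInstance

/-- Covering map of a half. -/
def projV (x : V n) : Tr n := fun i => (x i : UnitAddCircle)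

/-- Covering map. -/
def proj : E n → TT n := Prod.map projV projV

lemma proj_apply (p : E n) : proj p = (projV p.1, projV p.2) := rfl

lemma projV_open : IsOpenQuotientMap (projV : V n → Tr n) :=
  IsOpenQuotientMap.piMap fun _ => QuotientAddGroup.isOpenQuotientMap_mk

lemma proj_open : IsOpenQuotientMap (proj : E n → TT n) :=
  IsOpenQuotientMap.prodMap projV_open projV_open

lemma proj_surj : Function.Surjective (proj : E n → TT n) := proj_open.surjective

lemma continuous_proj : Continuous (proj : E n → TT n) := proj_open.continuous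

lemma projV_add (a b : V n) : projV (a + b) = projV a + projV b := by
  funext i; simp [projV]

lemma projV_sub (a b : V n) : projV (a - b) = projV a - projV b := by
  funext i; simp [projV]

lemma projV_zero : projV (0 : V n) = 0 := by funext i; simp [projV]

lemma proj_add (a b : E n) : proj (a + b) = proj a + proj b := by
  simp [proj_apply, projV_add]

/-- Integer vectors. -/
def IsIntV (m : V n) : Prop := ∀ i, ∃ a : ℤ, m i = a

/-- The integer lattice. -/
def IsInt (m : E n) : Prop := IsIntV m.1 ∧ IsIntV m.2

lemma projV_eq_zero {m : V n} : projV m = 0 ↔ IsIntV m := by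
  simp only [funext_iff, projV, Pi.zero_apply, IsIntV, AddCircle.coe_eq_zero_iff, zsmul_one]
  exact forall_congr' fun i => exists_congr fun a => eq_comm

lemma projV_eq_iff {a b : V n} : projV a = projV b ↔ IsIntV (a - b) := by
  rw [← projV_eq_zero, projV_sub, sub_eq_zero]

lemma proj_eq_iff {a b : E n} : proj a = proj b ↔ IsInt (a - b) := by
  simp [proj_apply, projV_eq_iff, IsInt]

lemma proj_add_int (p : E n) {m : E n} (hm : IsInt m) : proj (p + m) = proj p := by
  rw [proj_eq_iff]; simpa using hm

lemma int_reduce (p : E n) : ∃ m : E n, IsInt m ∧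
    p + m ∈ (univ.pi fun _ => Icc (0:ℝ) 1) ×ˢ (univ.pi fun _ => Icc (0:ℝ) 1) := by
  refine ⟨(fun i => ((-⌊p.1 i⌋ : ℤ) : ℝ), fun i => ((-⌊p.2 i⌋ : ℤ) : ℝ)),
    ⟨fun i => ⟨_, rfl⟩, fun i => ⟨_, rfl⟩⟩, ?_, ?_⟩
  all_goals
    intro i _
    simp only [Prod.fst_add, Prod.snd_add, Pi.add_apply, Int.cast_neg, ← sub_eq_add_neg,
      Int.self_sub_floor]
    exact ⟨Int.fract_nonneg _, (Int.fract_lt_one _).le⟩

lemma compact_cube : IsCompact
    ((univ.pi fun _ : Fin (n + 1) => Icc (0:ℝ) 1) ×ˢ (univ.pi fun _ : Fin (n + 1) => Icc (0:ℝ) 1)) :=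
  (isCompact_univ_pi fun _ => isCompact_Icc).prod (isCompact_univ_pi fun _ => isCompact_Icc)

lemma int_path_const {f : ℝ → E n} (hf : Continuous f) (h : ∀ t, IsInt (f t)) (s t : ℝ) :
    f s = f t := by
  have key : ∀ g : ℝ → ℝ, Continuous g → (∀ t, ∃ a : ℤ, g t = a) → g s = g t := by
    intro g hg hint
    choose z hz using hint
    have hzc : Continuous z := by
      apply Int.isClosedEmbedding_coe_real.isInducing.continuous_iff.2
      rw [show (Int.cast ∘ z : ℝ → ℝ) = g from funext fun t => (hz t).symm]
      exact hg
    rw [hz, hz, PreconnectedSpace.constant inferInstance hzc (x := s) (y := t)]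
  refine Prod.ext (funext fun i => ?_) (funext fun i => ?_)
  · exact key (fun u => (f u).1 i) (by fun_prop) fun u => (h u).1 i
  · exact key (fun u => (f u).2 i) (by fun_prop) fun u => (h u).2 i

variable (n) in
/-- A smooth volume preserving diffeomorphism of the torus, with lifts. -/
structure Diffeo where
  F : E n → E n
  G : E n → E n
  smoothF : ContDiff ℝ ∞ F
  smoothG : ContDiff ℝ ∞ G
  FG : ∀ p, F (G p) = p
  GF : ∀ p, G (F p) = p
  e : TT n ≃ₜ TT n
  hF : ∀ p, proj (F p) = e (proj p)
  mp : MeasurePreserving e volume volume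

namespace Diffeo

lemma hG (D : Diffeo n) (p : E n) : proj (D.G p) = D.e.symm (proj p) := by
  rw [eq_comm, Homeomorph.symm_apply_eq, ← D.hF, D.FG]

noncomputable def refl : Diffeo n where
  F := id
  G := id
  smoothF := contDiff_id
  smoothG := contDiff_id
  FG _ := rfl
  GF _ := rfl
  e := Homeomorph.refl _
  hF _ := rfl
  mp := MeasurePreserving.id _

/-- `D.comp A` applies `A` first. -/
noncomputable def comp (D A : Diffeo n) : Diffeo n where
  F := D.F ∘ A.F
  G := A.G ∘ D.G
  smoothF := D.smoothF.comp A.smoothF
  smoothG := A.smoothG.comp D.smoothG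
  FG p := by simp [D.FG, A.FG]
  GF p := by simp [D.GF, A.GF]
  e := A.e.trans D.e
  hF p := by simp [D.hF, A.hF]
  mp := D.mp.comp A.mp

noncomputable def symm (D : Diffeo n) : Diffeo n where
  F := D.G
  G := D.F
  smoothF := D.smoothG
  smoothG := D.smoothF
  FG := D.GF
  GF := D.FG
  e := D.e.symm
  hF := D.hG
  mp := MeasurePreserving.symm D.e.toMeasurableEquiv D.mp

end Diffeo

/-- An integer matrix acting on a half of the torus. -/
def mulT (A : Mat n) (x : Tr n) : Tr n := fun i => ∑ j, A i j • x j

/-- The same matrix acting on a half of the covering space. -/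
def mulR (A : Mat n) (x : V n) : V n := fun i => ∑ j, (A i j : ℝ) * x j

lemma projV_mulR (A : Mat n) (x : V n) : projV (mulR A x) = mulT A (projV x) := by
  funext i
  simp only [projV, mulR, mulT]
  have : ∀ j, A i j • (x j : UnitAddCircle) = (((A i j : ℝ) * x j : ℝ) : UnitAddCircle) := by
    intro j; rw [← AddCircle.coe_zsmul, zsmul_eq_mul]
  simp only [this]
  exact map_sum (QuotientAddGroup.mk' (AddSubgroup.zmultiples (1:ℝ))) _ _

@[fun_prop]
lemma continuous_mulT (A : Mat n) : Continuous (mulT A) := by
  unfold mulT; fun_prop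

@[fun_prop]
lemma contDiff_mulR (A : Mat n) : ContDiff ℝ ∞ (mulR A) := by
  unfold mulR; fun_prop

@[fun_prop]
lemma continuous_mulR (A : Mat n) : Continuous (mulR A) := (contDiff_mulR A).continuous

lemma mulT_add (A : Mat n) (x y : Tr n) : mulT A (x + y) = mulT A x + mulT A y := by
  funext i; simp [mulT, Finset.sum_add_distrib]

lemma mulR_add (A : Mat n) (x y : V n) : mulR A (x + y) = mulR A x + mulR A y := by
  funext i; simp [mulR, mul_add, Finset.sum_add_distrib]

lemma mulR_sub (A : Mat n) (x y : V n) : mulR A (x - y) = mulR A x - mulR A y := by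
  funext i; simp [mulR, mul_sub, Finset.sum_sub_distrib]

lemma mulR_mul (A B : Mat n) (x : V n) : mulR A (mulR B x) = mulR (A * B) x := by
  funext i
  simp only [mulR, Matrix.mul_apply, Int.cast_sum, Int.cast_mul, Finset.mul_sum, Finset.sum_mul]
  rw [Finset.sum_comm]
  simp [mul_assoc]

lemma mulT_mul (A B : Mat n) (x : Tr n) : mulT A (mulT B x) = mulT (A * B) x := by
  obtain ⟨y, rfl⟩ := projV_open.surjective x
  simp only [← projV_mulR, mulR_mul]

lemma mulR_one (x : V n) : mulR (1 : Mat n) x = x := by
  funext i; simp [mulR, Matrix.one_apply, apply_ite (Int.cast (R := ℝ)), ite_mul]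

lemma mulT_one (x : Tr n) : mulT (1 : Mat n) x = x := by
  obtain ⟨y, rfl⟩ := projV_open.surjective x
  rw [← projV_mulR, mulR_one]

lemma mulR_isInt (A : Mat n) {m : V n} (hm : IsIntV m) : IsIntV (mulR A m) := by
  rw [← projV_eq_zero, projV_mulR, projV_eq_zero.2 hm]
  funext i; simp [mulT]

/-- A continuous automorphism of the torus preserves volume. -/
lemma mp_of_additive (f : TT n → TT n) (hc : Continuous f) (hadd : ∀ a b, f (a + b) = f a + f b)
    (hsurj : Function.Surjective f) : MeasurePreserving f volume volume :=
  AddMonoidHom.measurePreserving (f := AddMonoidHom.mk' f hadd) hc hsurj (by simp)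

/-- `(x, y) ↦ (A x, B y)` for invertible integer matrices. -/
noncomputable def diagAut (A A' B B' : Mat n) (hA : A * A' = 1) (hA' : A' * A = 1)
    (hB : B * B' = 1) (hB' : B' * B = 1) : Diffeo n where
  F p := (mulR A p.1, mulR B p.2)
  G p := (mulR A' p.1, mulR B' p.2)
  smoothF := ((contDiff_mulR A).comp contDiff_fst).prodMk ((contDiff_mulR B).comp contDiff_snd)
  smoothG := ((contDiff_mulR A').comp contDiff_fst).prodMk ((contDiff_mulR B').comp contDiff_snd)
  FG p := by simp [mulR_mul, hA, hB, mulR_one]
  GF p := by simp [mulR_mul, hA', hB', mulR_one]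
  e :=
    { toFun := fun z => (mulT A z.1, mulT B z.2)
      invFun := fun z => (mulT A' z.1, mulT B' z.2)
      left_inv := fun z => by simp [mulT_mul, hA', hB', mulT_one]
      right_inv := fun z => by simp [mulT_mul, hA, hB, mulT_one]
      continuous_toFun := by fun_prop
      continuous_invFun := by fun_prop }
  hF p := by simp [proj_apply, projV_mulR]
  mp := mp_of_additive _ (Homeomorph.continuous _) (fun a b => by simp [mulT_add])
    (Homeomorph.surjective _)

/-- `(x, y) ↦ (M x - y, x)`. -/
noncomputable def twist (M : Mat n) : Diffeo n where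
  F p := (mulR M p.1 - p.2, p.1)
  G p := (p.2, mulR M p.2 - p.1)
  smoothF := (((contDiff_mulR M).comp contDiff_fst).sub contDiff_snd).prodMk contDiff_fst
  smoothG := contDiff_snd.prodMk (((contDiff_mulR M).comp contDiff_snd).sub contDiff_fst)
  FG p := by simp
  GF p := by simp
  e :=
    { toFun := fun z => (mulT M z.1 - z.2, z.1)
      invFun := fun z => (z.2, mulT M z.2 - z.1)
      left_inv := fun z => by simp
      right_inv := fun z => by simp
      continuous_toFun := by fun_prop
      continuous_invFun := by fun_prop }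
  hF p := by simp [proj_apply, projV_sub, projV_mulR]
  mp := mp_of_additive _ (Homeomorph.continuous _)
    (fun a b => by simp [mulT_add, add_sub_add_comm]) (Homeomorph.surjective _)

/-- `(X, Y) ↦ (X, Y + C X)`. -/
noncomputable def unip (C : Mat n) : Diffeo n where
  F p := (p.1, p.2 + mulR C p.1)
  G p := (p.1, p.2 - mulR C p.1)
  smoothF := contDiff_fst.prodMk (contDiff_snd.add ((contDiff_mulR C).comp contDiff_fst))
  smoothG := contDiff_fst.prodMk (contDiff_snd.sub ((contDiff_mulR C).comp contDiff_fst))
  FG p := by simp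
  GF p := by simp
  e :=
    { toFun := fun z => (z.1, z.2 + mulT C z.1)
      invFun := fun z => (z.1, z.2 - mulT C z.1)
      left_inv := fun z => by simp
      right_inv := fun z => by simp
      continuous_toFun := by fun_prop
      continuous_invFun := by fun_prop }
  hF p := by simp [proj_apply, projV_add, projV_mulR]
  mp := mp_of_additive _ (Homeomorph.continuous _)
    (fun a b => by simp [mulT_add, add_add_add_comm]) (Homeomorph.surjective _)

/-- Smoothed sawtooth. -/
noncomputable def saw (δ t : ℝ) : ℝ := t - stair δ t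

lemma saw_smooth {δ : ℝ} (hδ : 0 < δ) (hδ1 : δ < 1) : ContDiff ℝ ∞ (saw δ) :=
  contDiff_id.sub (stair_smooth hδ hδ1)

lemma saw_add_int (δ t : ℝ) (m : ℤ) : saw δ (t + m) = saw δ t := by
  simp only [saw, stair_add_int]; ring

lemma saw_flat {δ t : ℝ} (hδ : 0 < δ) (h : Int.fract t ≤ 1 - δ) : saw δ t = Int.fract t := by
  rw [saw, stair_flat hδ h, Int.self_sub_floor]

/-- Shear `(x, y) ↦ (x + f y, y)` for periodic `f`. -/
noncomputable def shear (f : V n → V n) (hf : ContDiff ℝ ∞ f)
    (hper : ∀ y m, IsIntV m → f (y + m) = f y) : Diffeo n :=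
  let φ : Tr n → Tr n := Function.extend projV (fun y => projV (f y)) id
  have hfac : Function.FactorsThrough (fun y => projV (f y)) (projV : V n → Tr n) := by
    intro a b hab
    have := hper b (a - b) (projV_eq_iff.1 hab)
    rw [add_sub_cancel] at this
    simp only [this]
  have hφ : ∀ y, φ (projV y) = projV (f y) := fun y => hfac.extend_apply _ y
  have hφc : Continuous φ := by
    rw [← projV_open.continuous_comp_iff, show φ ∘ projV = fun y => projV (f y) from funext hφ]
    exact projV_open.continuous.comp hf.continuous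
  { F := fun p => (p.1 + f p.2, p.2)
    G := fun p => (p.1 - f p.2, p.2)
    smoothF := (contDiff_fst.add (hf.comp contDiff_snd)).prodMk contDiff_snd
    smoothG := (contDiff_fst.sub (hf.comp contDiff_snd)).prodMk contDiff_snd
    FG := fun p => by simp
    GF := fun p => by simp
    e :=
      { toFun := fun z => (z.1 + φ z.2, z.2)
        invFun := fun z => (z.1 - φ z.2, z.2)
        left_inv := fun z => by simp
        right_inv := fun z => by simp
        continuous_toFun := (continuous_fst.add (hφc.comp continuous_snd)).prodMk continuous_snd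
        continuous_invFun := (continuous_fst.sub (hφc.comp continuous_snd)).prodMk continuous_snd }
    hF := fun p => by simp [proj_apply, projV_add, hφ]
    mp := by
      have h1 : MeasurePreserving (fun p : Tr n × Tr n => (p.1, p.2 + φ p.1))
          ((volume : Measure (Tr n)).prod volume) ((volume : Measure (Tr n)).prod volume) := by
        refine (MeasurePreserving.id volume).skew_product (g := fun a c => c + φ a) ?_
          (Eventually.of_forall fun a => map_add_right_eq_self volume (φ a))
        exact (continuous_snd.add (hφc.comp continuous_fst)).measurable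
      exact (Measure.measurePreserving_swap.comp h1).comp Measure.measurePreserving_swap }

end Vale.Agent.P109.Sol
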