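import Mathlib
import Vale.Agent.P109.Sol.Torus

/-! One refining step: lattice algebra and the refining diffeomorphism (P109). -/

open MeasureTheory Filter Topology Set
open scoped ContDiff

namespace Vale.Agent.P109.Sol

variable {n : ℕ}

/-- The character with frequency `c`. -/
def psi (x : Tr n) (c : Fin (n + 1) → ℤ) : UnitAddCircle := ∑ i, c i • x i

lemma psi_add (x y : Tr n) (c : Fin (n + 1) → ℤ) : psi (x + y) c = psi x c + psi y c := by
  simp [psi, Finset.sum_add_distrib]

lemma psi_addc (x : Tr n) (c d : Fin (n + 1) → ℤ) : psi x (c + d) = psi x c + psi x d := by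
  simp [psi, Finset.sum_add_distrib, add_smul]

lemma psi_smul (x : Tr n) (k : ℤ) (c : Fin (n + 1) → ℤ) : psi x (k • c) = k • psi x c := by
  simp [psi, Finset.smul_sum, smul_smul]

lemma psi_zero (x : Tr n) : psi x 0 = 0 := by simp [psi]

lemma psi_sub (x : Tr n) (c d : Fin (n + 1) → ℤ) : psi x (c - d) = psi x c - psi x d := by
  simp [psi, sub_smul, Finset.sum_sub_distrib]

lemma mulT_eq_psi (A : Mat n) (x : Tr n) (i : Fin (n + 1)) : mulT A x i = psi x (A i) := rfl

lemma psi_single (x : Tr n) (i : Fin (n + 1)) : psi x (Pi.single i 1) = x i := by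
  simp [psi, Pi.single_apply, ite_smul]

lemma psi_mulT (A : Mat n) (x : Tr n) (c : Fin (n + 1) → ℤ) :
    psi (mulT A x) c = psi x (Matrix.vecMul c A) := by
  simp only [psi, mulT, Matrix.vecMul, dotProduct, Finset.smul_sum, Finset.sum_smul, smul_smul]
  rw [Finset.sum_comm]

/-- Independent family. -/
def Indep (v : Tr n) : Prop := ∀ c, psi v c = 0 → c = 0

lemma Indep.injective {v : Tr n} (h : Indep v) : Function.Injective (psi v) := by
  intro c d hcd
  exact sub_eq_zero.1 (h _ (by rw [psi_sub, hcd, sub_self]))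

/-- The diagonal matrix `diag(1, …, 1, m)`. -/
def Md (m : ℕ) : Mat n := Matrix.diagonal (Function.update 1 (Fin.last n) (m : ℤ))

/-- Its inverse on the covering space. -/
noncomputable def dinv (m : ℕ) (x : V n) : V n :=
  Function.update x (Fin.last n) (x (Fin.last n) / m)

lemma mulR_Md (m : ℕ) (x : V n) (i : Fin (n + 1)) :
    mulR (Md m) x i = (if i = Fin.last n then (m : ℝ) else 1) * x i := by
  rw [mulR, Finset.sum_eq_single i]
  · rw [Md, Matrix.diagonal_apply_eq]
    by_cases h : i = Fin.last n
    · subst h; simp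
    · simp [h]
  · intro j _ hj
    simp [Md, Matrix.diagonal_apply_ne _ (Ne.symm hj)]
  · simp

lemma mulT_Md (m : ℕ) (x : Tr n) (i : Fin (n + 1)) :
    mulT (Md m) x i = (if i = Fin.last n then (m : ℤ) else 1) • x i := by
  rw [mulT, Finset.sum_eq_single i]
  · rw [Md, Matrix.diagonal_apply_eq]
    by_cases h : i = Fin.last n
    · subst h; simp
    · simp [h]
  · intro j _ hj
    simp [Md, Matrix.diagonal_apply_ne _ (Ne.symm hj)]
  · simp

lemma Md_dinv {m : ℕ} (hm : 0 < m) (x : V n) : mulR (Md m) (dinv m x) = x := by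
  funext i
  rw [mulR_Md, dinv]
  by_cases h : i = Fin.last n
  · subst h
    have hm' : (m : ℝ) ≠ 0 := by positivity
    simp only [if_true, Function.update_self]
    field_simp
  · simp [h]

lemma dinv_smooth (m : ℕ) : ContDiff ℝ ∞ (dinv m : V n → V n) := by
  refine contDiff_pi.2 fun i => ?_
  by_cases h : i = Fin.last n
  · subst h
    simp only [dinv, Function.update_self]
    fun_prop
  · simp only [dinv, Function.update_of_ne h]
    fun_prop

/-- A vector is an integer multiple of a member of a basis. -/
lemma exists_adapt (c : Fin (n + 1) → ℤ) :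
    ∃ A A' : Mat n, A * A' = 1 ∧ A' * A = 1 ∧ ∃ a : ℤ, c = a • A (Fin.last n) := by
  classical
  rcases eq_or_ne c 0 with rfl | hc
  · exact ⟨1, 1, one_mul _, one_mul _, 0, by simp⟩
  obtain ⟨k, snf⟩ := Submodule.smithNormalForm (Pi.basisFun ℤ (Fin (n + 1))) (ℤ ∙ c)
  let e := LinearEquiv.toSpanNonzeroSingleton ℤ _ c hc
  have hk : k = 1 := by
    have h1 : Module.finrank ℤ (ℤ ∙ c) = 1 := by rw [← e.finrank_eq]; exact Module.finrank_self ℤ
    rw [Module.finrank_eq_card_basis snf.bN, Fintype.card_fin] at h1
    exact h1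
  subst hk
  let b := snf.bM.reindex (Equiv.swap (snf.f 0) (Fin.last n))
  have hb : b (Fin.last n) = snf.bM (snf.f 0) := by simp [b]
  obtain ⟨t, ht⟩ : ∃ t : ℤ, c = t • (snf.bN 0 : Fin (n + 1) → ℤ) := by
    refine ⟨snf.bN.repr ⟨c, Submodule.mem_span_singleton_self c⟩ 0, ?_⟩
    conv_lhs => rw [show c = ((⟨c, Submodule.mem_span_singleton_self c⟩ : (ℤ ∙ c)) :
      Fin (n + 1) → ℤ) from rfl, ← snf.bN.sum_repr ⟨c, Submodule.mem_span_singleton_self c⟩]
    simp
  refine ⟨Matrix.of fun i => b i, Matrix.of fun i j => b.repr (Pi.single i 1) j, ?_, ?_,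
    t * snf.a 0, ?_⟩
  · ext i j
    rw [Matrix.mul_apply]
    simp only [Matrix.of_apply]
    have h := congrArg (fun z => (b.repr z) j) (pi_eq_sum_univ' (b i))
    simp only [map_sum, map_smul, Finsupp.coe_finsetSum, Finset.sum_apply, Finsupp.coe_smul,
      Pi.smul_apply, smul_eq_mul, Module.Basis.repr_self] at h
    rw [← h, Matrix.one_apply, Finsupp.single_apply]
  · ext i j
    rw [Matrix.mul_apply]
    simp only [Matrix.of_apply]
    have h := congrArg (fun z : Fin (n + 1) → ℤ => z j) (b.sum_repr (Pi.single i 1))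
    simp only [Finset.sum_apply, Pi.smul_apply, smul_eq_mul] at h
    rw [h, Matrix.one_apply, Pi.single_apply]
    simp only [eq_comm]
  · show c = (t * snf.a 0) • b (Fin.last n)
    refine ht.trans ?_
    rw [hb, snf.snf 0, smul_smul]

/-- Refining the basis so as to contain a new element. -/
lemma exists_refine (Γ : AddSubgroup UnitAddCircle)
    (htf : ∀ x ∈ Γ, ∀ k : ℤ, k ≠ 0 → k • x = 0 → x = 0) (v : Tr n) (hv : ∀ i, v i ∈ Γ)
    (hind : Indep v) (γ : UnitAddCircle) (hγ : γ ∈ Γ) (m : ℕ) (hm : 0 < m)
    (hmem : ∃ c, psi v c = (m : ℤ) • γ)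
    (hmin : ∀ k : ℕ, 0 < k → k < m → ¬ ∃ c, psi v c = (k : ℤ) • γ) :
    ∃ (A A' : Mat n) (v' : Tr n), A * A' = 1 ∧ A' * A = 1 ∧ (∀ i, v' i ∈ Γ) ∧ Indep v' ∧
      mulT (Md m) v' = mulT A v ∧ ∃ c, psi v' c = γ := by
  classical
  obtain ⟨c, hc⟩ := hmem
  obtain ⟨A, A', hAA, hAA', a, hca⟩ := exists_adapt c
  set w := mulT A v with hw
  have hwΓ : ∀ i, w i ∈ Γ := fun i => Γ.sum_mem fun j _ => Γ.zsmul_mem (hv j) _
  set l := Fin.last n
  have hwl : (m : ℤ) • γ = a • w l := by
    rw [← hc, hca, psi_smul]; rfl
  have hgcd : Int.gcd a m = 1 := by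
    by_contra hne
    set g := Int.gcd a m
    have hg0 : 0 < g := Int.gcd_pos_of_ne_zero_right _ (by exact_mod_cast hm.ne')
    obtain ⟨a1, ha1⟩ := Int.gcd_dvd_left a m
    obtain ⟨m1, hm1⟩ := Int.gcd_dvd_right a m
    have hm1pos : 0 < m1 := by
      have : (0:ℤ) < (g:ℤ) * m1 := by rw [← hm1]; exact_mod_cast hm
      exact (mul_pos_iff_of_pos_left (by exact_mod_cast hg0)).1 this
    obtain ⟨k, rfl⟩ : ∃ k : ℕ, m1 = k := ⟨m1.toNat, (Int.toNat_of_nonneg hm1pos.le).symm⟩
    have hk : (k : ℤ) • γ = a1 • w l := by
      refine sub_eq_zero.1 (htf _ (Γ.sub_mem (Γ.zsmul_mem hγ _) (Γ.zsmul_mem (hwΓ l) _))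
        (g : ℤ) (by exact_mod_cast hg0.ne') ?_)
      rw [smul_sub, smul_smul, smul_smul, ← hm1, ← ha1, hwl, sub_self]
    refine hmin k (by exact_mod_cast hm1pos) ?_ ⟨a1 • A l, ?_⟩
    · have : (k:ℤ) < (m:ℤ) := by rw [hm1]; nlinarith [show (2:ℤ) ≤ g by omega]
      exact_mod_cast this
    · rw [psi_smul, hk]; rfl
  obtain ⟨s, t, hst⟩ : ∃ s t : ℤ, s * a + t * m = 1 := by
    refine ⟨Int.gcdA a m, Int.gcdB a m, ?_⟩
    have := Int.gcd_eq_gcd_ab a m
    rw [hgcd] at this; push_cast at this; linarith
  set γ' := s • γ + t • w l with hγ'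
  have hmγ' : (m : ℤ) • γ' = w l := by
    rw [hγ', smul_add, smul_comm (m:ℤ) s γ, hwl, smul_smul, smul_smul, ← add_smul,
      show s * a + (m:ℤ) * t = 1 by linarith, one_smul]
  set v' : Tr n := Function.update w l γ' with hv'
  have hM : mulT (Md m) v' = w := by
    funext i
    rw [mulT_Md, hv']
    by_cases h : i = l
    · subst h; simp [hmγ', l]
    · simp [h, l]
  refine ⟨A, A', v', hAA, hAA', ?_, ?_, hM, ?_⟩
  · intro i
    by_cases h : i = l
    · subst h; simp only [hv', Function.update_self]
      exact Γ.add_mem (Γ.zsmul_mem hγ _) (Γ.zsmul_mem (hwΓ _) _)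
    · simp only [hv', Function.update_of_ne h]; exact hwΓ i
  · intro d hd
    have h1 : psi w (fun i => (if i = l then 1 else (m : ℤ)) * d i) = 0 := by
      have : psi w (fun i => (if i = l then 1 else (m : ℤ)) * d i) = (m : ℤ) • psi v' d := by
        simp only [psi, Finset.smul_sum, smul_smul]
        refine Finset.sum_congr rfl fun i _ => ?_
        by_cases h : i = l
        · subst h
          simp only [if_true, one_mul, hv', Function.update_self]
          rw [mul_comm, ← smul_smul, hmγ']
        · simp [h, hv']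
      rw [this, hd, smul_zero]
    rw [hw, psi_mulT] at h1
    have h2 := congrArg (fun z => Matrix.vecMul z A') (hind _ h1)
    simp only [Matrix.vecMul_vecMul, hAA, Matrix.vecMul_one, Matrix.zero_vecMul] at h2
    funext i
    have h3 := congrFun h2 i
    simp only [Pi.zero_apply, mul_eq_zero] at h3
    rcases h3 with h3 | h3
    · split_ifs at h3 <;> omega
    · exact h3
  · refine ⟨Pi.single l a, ?_⟩
    have e : psi v' (Pi.single l a) = γ + (-(t * m)) • γ + (a * t) • w l := by
      rw [show (Pi.single l a : Fin (n+1) → ℤ) = a • Pi.single l 1 by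
        rw [← Pi.single_smul']; simp, psi_smul, psi_single, hv', Function.update_self, hγ',
        smul_add, smul_smul, smul_smul,
        show a * s = 1 + -(t * m) by linarith, add_smul, one_smul]
    rw [e, add_assoc, show (-(t * m)) • γ + (a * t) • w l = 0 by
      rw [neg_smul, mul_smul, hwl, ← mul_smul, mul_comm t a, neg_add_cancel], add_zero]

/-- Unimodular changes making the step contract the second half. -/
lemma exists_squeeze (a m : ℕ) (ha : 3 ≤ a) (hm : a ^ (n + 1) ≤ m) :
    ∃ U U' T T' : Mat n, U * U' = 1 ∧ U' * U = 1 ∧ T * T' = 1 ∧ T' * T = 1 ∧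
      ∀ y : V n, (∀ i, |y i| ≤ 1) → ∀ i, |mulR U (dinv m (mulR T y)) i| ≤ 2 / ((a : ℝ) - 2) := by
  classical
  set l := Fin.last n with hl
  set u : Fin (n + 1) → ℤ := fun i => if i = l then 1 else ((m / a ^ ((i : ℕ) + 1) : ℕ) : ℤ) with hu
  set U : Mat n := fun i j => if j = l then u i else (if i = j then 1 else 0) with hU
  set U' : Mat n := fun i j => if j = l then (if i = l then 1 else -u i) else
    (if i = j then 1 else 0) with hU'
  -- the companion-type unimodular map
  let Bf : (Fin (n + 1) → ℤ) →ₗ[ℤ] (Fin (n + 1) → ℤ) :=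
    { toFun := fun x i => (if i = l then 0 else (a : ℤ) * x i) +
        Fin.cases (x l) (fun j => - x j.castSucc) i
      map_add' := by
        intro x y; funext i
        cases i using Fin.cases with
        | zero => simp only [Fin.cases_zero, Pi.add_apply]; split_ifs <;> ring
        | succ j => simp only [Fin.cases_succ, Pi.add_apply]; split_ifs <;> ring
      map_smul' := by
        intro k x; funext i
        cases i using Fin.cases with
        | zero => simp only [Fin.cases_zero, Pi.smul_apply, smul_eq_mul, RingHom.id_apply]; split_ifs <;> ring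
        | succ j => simp only [Fin.cases_succ, Pi.smul_apply, smul_eq_mul, RingHom.id_apply]; split_ifs <;> ring }
  have hinj : Function.Injective Bf := by
    rw [← LinearMap.ker_eq_bot, LinearMap.ker_eq_bot']
    intro x hx
    have key : ∀ i : Fin (n + 1), i ≠ l → x i = 0 := by
      intro i
      induction i using Fin.reverseInduction with
      | last => intro h; exact absurd rfl h
      | cast j ih =>
        intro _
        have h := congrFun hx j.succ
        simp only [Bf, LinearMap.coe_mk, AddHom.coe_mk, Fin.cases_succ, Pi.zero_apply] at h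
        by_cases hj : j.succ = l
        · rw [if_pos hj] at h; omega
        · rw [if_neg hj, ih hj] at h; simpa using h
    funext i
    by_cases hi : i = l
    · subst hi
      have h := congrFun hx 0
      simp only [Bf, LinearMap.coe_mk, AddHom.coe_mk, Fin.cases_zero, Pi.zero_apply] at h
      by_cases h0 : (0 : Fin (n + 1)) = l
      · rw [if_pos h0] at h; simpa using h
      · rw [if_neg h0, key 0 h0] at h; simpa using h
    · exact key i hi
  have hsurj : Function.Surjective Bf := by
    intro y
    let x0 : Fin (n + 1) → ℤ := Fin.reverseInduction (motive := fun _ => ℤ) 0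
      (fun j nx => (if j.succ = l then 0 else (a:ℤ) * nx) - y j.succ)
    refine ⟨Function.update x0 l (y 0 - if (0 : Fin (n + 1)) = l then 0 else (a:ℤ) * x0 0), ?_⟩
    funext i
    cases i using Fin.cases with
    | zero =>
      simp only [Bf, LinearMap.coe_mk, AddHom.coe_mk, Fin.cases_zero, Function.update_self]
      by_cases h0 : (0 : Fin (n + 1)) = l
      · simp [h0]
      · simp [h0, Function.update_of_ne h0]
    | succ j =>
      have hj : j.castSucc ≠ l := (Fin.castSucc_lt_last j).ne
      simp only [Bf, LinearMap.coe_mk, AddHom.coe_mk, Fin.cases_succ, Function.update_of_ne hj,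
        x0, Fin.reverseInduction_castSucc]
      by_cases hs : j.succ = l
      · simp [hs]
      · simp [hs, Function.update_of_ne hs, x0]
  let e := LinearEquiv.ofBijective Bf ⟨hinj, hsurj⟩
  set N : Mat n := fun i j => if j = l then (if i = l then 0 else u i) else 0 with hN
  have hN2 : N * N = 0 := by
    ext i j
    rw [Matrix.mul_apply]
    refine Finset.sum_eq_zero fun k _ => ?_
    simp only [hN]
    split_ifs <;> simp
  have hUN : U = 1 + N := by
    ext i j
    show (if j = l then u i else if i = j then 1 else 0) =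
      (1 : Mat n) i j + (if j = l then (if i = l then 0 else u i) else 0)
    rw [Matrix.one_apply]
    by_cases hj : j = l
    · subst hj; by_cases hi : i = l <;> simp [hi, hu]
    · simp [hj]
  have hUN' : U' = 1 - N := by
    ext i j
    show (if j = l then (if i = l then 1 else -u i) else if i = j then 1 else 0) =
      (1 : Mat n) i j - (if j = l then (if i = l then 0 else u i) else 0)
    rw [Matrix.one_apply]
    by_cases hj : j = l
    · subst hj; by_cases hi : i = l <;> simp [hi]
    · simp [hj]
  refine ⟨U, U', LinearMap.toMatrix' (e.symm : _ →ₗ[ℤ] _), LinearMap.toMatrix' Bf, ?_, ?_, ?_, ?_, ?_⟩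
  · rw [hUN, hUN', add_mul, one_mul, mul_sub, mul_one, hN2, sub_zero, sub_add_cancel]
  · rw [hUN, hUN', sub_mul, one_mul, mul_add, mul_one, hN2, add_zero, add_sub_cancel_right]
  · rw [← LinearMap.toMatrix'_comp, show ((e.symm : _ →ₗ[ℤ] _)).comp Bf = LinearMap.id from
      LinearMap.ext fun x => e.symm_apply_apply x, LinearMap.toMatrix'_id]
  · rw [← LinearMap.toMatrix'_comp, show Bf.comp (e.symm : _ →ₗ[ℤ] _) = LinearMap.id from
      LinearMap.ext fun x => e.apply_symm_apply x, LinearMap.toMatrix'_id]
  · intro y hy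
    set Tm := LinearMap.toMatrix' (e.symm : (Fin (n+1) → ℤ) →ₗ[ℤ] (Fin (n+1) → ℤ))
    set Bm := LinearMap.toMatrix' Bf
    set x := mulR Tm y with hx
    have hBT : Bm * Tm = 1 := by
      rw [← LinearMap.toMatrix'_comp, show Bf.comp (e.symm : _ →ₗ[ℤ] _) = LinearMap.id from
        LinearMap.ext fun x => e.apply_symm_apply x, LinearMap.toMatrix'_id]
    have hBx : mulR Bm x = y := by rw [hx, mulR_mul, hBT, mulR_one]
    have hBrow : ∀ i, mulR Bm x i = (if i = l then 0 else (a : ℝ) * x i) +
        Fin.cases (x l) (fun j => - x j.castSucc) i := by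
      intro i
      simp only [mulR, Bm, LinearMap.toMatrix'_apply, Bf, LinearMap.coe_mk, AddHom.coe_mk]
      cases i using Fin.cases with
      | zero =>
        simp only [Fin.cases_zero]
        by_cases h0 : (0 : Fin (n + 1)) = l
        · simp [h0, Pi.single_apply]
        · simp [h0, Pi.single_apply, add_mul, Finset.sum_add_distrib]
      | succ j =>
        simp only [Fin.cases_succ]
        by_cases h0 : j.succ = l
        · simp [h0, Pi.single_apply]
        · simp [h0, Pi.single_apply, add_mul, Finset.sum_add_distrib]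
    have hm0 : (0:ℝ) < m := by
      have := Nat.one_le_pow (n + 1) a (by omega)
      exact_mod_cast (show 0 < m by omega)
    have hm' : (m:ℝ) ≠ 0 := hm0.ne'
    set z := mulR U (dinv m x) with hz
    set s := x l / (m:ℝ) with hs
    have hdl : dinv m x l = s := by simp [dinv, hs, hl]
    have hdi : ∀ j, j ≠ l → dinv m x j = x j := fun j hj => by
      rw [dinv, Function.update_of_ne (by rw [← hl]; exact hj)]
    have hUz : ∀ i, z i = dinv m x i + (if i = l then 0 else (u i : ℝ)) * s := by
      intro i
      have : ∀ j, (U i j : ℝ) * dinv m x j =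
          (if j = i then dinv m x i else 0) + (if j = l then (if i = l then 0 else (u i : ℝ)) * s else 0) := by
        intro j
        have eU : U i j = (if j = l then u i else if i = j then 1 else 0) := rfl
        rw [eU]
        by_cases hj : j = l
        · subst hj
          by_cases hi : i = l
          · subst hi; simp [hu, hdl]
          · simp [hi, Ne.symm hi, hdl]
        · by_cases hji : j = i
          · subst hji; simp [hj]
          · simp [hj, hji, Ne.symm hji]
      simp [hz, mulR, this, Finset.sum_add_distrib]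
    have hzl : z l = s := by rw [hUz, hdl]; simp
    have hzi : ∀ i, i ≠ l → z i = x i + (u i : ℝ) * s := fun i hi => by
      rw [hUz, hdi i hi, if_neg hi]
    set prev : Fin (n + 1) → ℕ := fun i => m / a ^ (i : ℕ) with hprev
    set ci : Fin (n + 1) → ℝ := fun i => (prev i : ℝ) - (a:ℝ) * (u i : ℝ) with hci
    have hc0 : ∀ i, 0 ≤ ci i ∧ (i ≠ l → ci i ≤ a) := by
      intro i
      by_cases hi : i = l
      · subst hi
        refine ⟨?_, fun h => absurd rfl h⟩
        have : a ≤ m / a ^ n := (Nat.le_div_iff_mul_le (pow_pos (by omega) n)).2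
          (by rw [← pow_succ']; exact hm)
        simp only [hci, hu, if_true, hprev, hl, Fin.val_last, Int.cast_one, mul_one, sub_nonneg]
        exact_mod_cast this
      · have e1 : m / a ^ ((i:ℕ) + 1) = (m / a ^ (i:ℕ)) / a := by
          rw [Nat.div_div_eq_div_mul, ← pow_succ]
        have e2 := Nat.div_add_mod (m / a ^ (i:ℕ)) a
        have e3 := Nat.mod_lt (m / a ^ (i:ℕ)) (show a > 0 by omega)
        have e4 : ci i = (((m / a ^ (i:ℕ)) % a : ℕ) : ℝ) := by
          simp only [hci, hu, if_neg hi, hprev, e1, Int.cast_natCast]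
          have := congrArg (Nat.cast (R := ℝ)) e2
          push_cast at this
          linarith
        rw [e4]
        exact ⟨by positivity, fun _ => by exact_mod_cast e3.le⟩
    have hul : (u l : ℝ) = 1 := by simp [hu]
    have heq : ∀ i, (a:ℝ) * z i + ci i * z l + Fin.cases 0 (fun j => - z j.castSucc) i = y i := by
      intro i
      rw [← hBx, hBrow, hzl]
      cases i using Fin.cases with
      | zero =>
        simp only [Fin.cases_zero, hci, hprev, Fin.val_zero, pow_zero, Nat.div_one]
        by_cases h0 : (0 : Fin (n + 1)) = l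
        · rw [if_pos h0, h0, hzl, hs, hul]; field_simp; ring
        · rw [if_neg h0, hzi 0 h0, hs]; field_simp; ring
      | succ j =>
        have hj : j.castSucc ≠ l := (Fin.castSucc_lt_last j).ne
        have hpu : ((prev j.succ : ℕ) : ℝ) = (u j.castSucc : ℝ) := by
          simp only [hprev, hu, if_neg hj, Fin.val_succ, Fin.val_castSucc, Int.cast_natCast]
        have hci' : ci j.succ = (u j.castSucc : ℝ) - (a:ℝ) * (u j.succ : ℝ) := by rw [← hpu]
        simp only [Fin.cases_succ, hci']
        rw [hzi _ hj]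
        by_cases h0 : j.succ = l
        · rw [if_pos h0, h0, hzl, hul]; ring
        · rw [if_neg h0, hzi _ h0]; ring
    obtain ⟨i0, -, hi0⟩ := Finset.exists_max_image Finset.univ (fun i => |z i|) Finset.univ_nonempty
    have hmax : ∀ i, |z i| ≤ |z i0| := fun i => hi0 i (Finset.mem_univ i)
    have hrest : ∀ i, |Fin.cases (motive := fun _ => ℝ) 0 (fun j => - z j.castSucc) i| ≤ |z i0| := by
      intro i
      cases i using Fin.cases with
      | zero => simp
      | succ j => simp only [Fin.cases_succ, abs_neg]; exact hmax _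
    have ha' : (3:ℝ) ≤ a := by exact_mod_cast ha
    have hb : ∀ i, (a:ℝ) * |z i| ≤ 2 + 2 * |z i0| := by
      have key : (a:ℝ) * |z l| ≤ 1 + |z i0| := by
        have e : ((a:ℝ) + ci l) * z l = y l - Fin.cases (motive := fun _ => ℝ) 0 (fun j => - z j.castSucc) l := by
          rw [← heq l]; ring
        have h1 : (a:ℝ) * |z l| ≤ |((a:ℝ) + ci l) * z l| := by
          rw [abs_mul, abs_of_nonneg (by linarith [(hc0 l).1] : (0:ℝ) ≤ a + ci l)]
          exact mul_le_mul_of_nonneg_right (by linarith [(hc0 l).1]) (abs_nonneg _)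
        rw [e] at h1
        linarith [abs_sub (y l) (Fin.cases (motive := fun _ => ℝ) 0 (fun j => - z j.castSucc) l),
          hy l, hrest l]
      intro i
      by_cases hi : i = l
      · subst hi; linarith [abs_nonneg (z i0)]
      · have e : (a:ℝ) * z i = y i - Fin.cases (motive := fun _ => ℝ) 0 (fun j => - z j.castSucc) i
            - ci i * z l := by rw [← heq i]; ring
        have h1 : |ci i * z l| ≤ 1 + |z i0| := by
          rw [abs_mul, abs_of_nonneg (hc0 i).1]
          exact (mul_le_mul_of_nonneg_right ((hc0 i).2 hi) (abs_nonneg _)).trans key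
        have h2 : (a:ℝ) * |z i| = |(a:ℝ) * z i| := by
          rw [abs_mul, abs_of_nonneg (by linarith : (0:ℝ) ≤ a)]
        rw [h2, e]
        linarith [abs_sub (y i - Fin.cases (motive := fun _ => ℝ) 0 (fun j => - z j.castSucc) i) (ci i * z l),
          abs_sub (y i) (Fin.cases (motive := fun _ => ℝ) 0 (fun j => - z j.castSucc) i), hy i, hrest i]
    intro i
    refine (hmax i).trans ?_
    rw [le_div_iff₀ (by linarith)]
    linarith [hb i0]

end Vale.Agent.P109.Sol
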