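import Mathlib
import Vale.Agent.P109.Sol.Torus

/-! Conjugated translations and their smooth dependence on the vector (P109). -/

open MeasureTheory Filter Topology Set
open scoped ContDiff

namespace Vale.Agent.P109.Sol

variable {n : ℕ}

/-- Lift of the conjugated translation. -/
def conjF (D : Diffeo n) (v : E n) (p : E n) : E n := D.F (D.G p + v)

lemma conjF_smooth2 (D : Diffeo n) : ContDiff ℝ ∞ (fun vp : E n × E n => conjF D vp.1 vp.2) :=
  D.smoothF.comp ((D.smoothG.comp contDiff_snd).add contDiff_fst)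

lemma conjF_smooth (D : Diffeo n) (v : E n) : ContDiff ℝ ∞ (conjF D v) :=
  (conjF_smooth2 D).comp (contDiff_const.prodMk contDiff_id)

lemma conjF_zero (D : Diffeo n) (p : E n) : conjF D 0 p = p := by simp [conjF, D.FG]

lemma conjF_inv (D : Diffeo n) (v p : E n) : conjF D v (conjF D (-v) p) = p := by
  simp [conjF, D.GF, D.FG]

lemma proj_conjF (D : Diffeo n) (v p : E n) :
    proj (conjF D v p) = D.e (D.e.symm (proj p) + proj v) := by
  rw [conjF, D.hF, proj_add, D.hG]

lemma conjF_add_int (D : Diffeo n) (v p : E n) {m : E n} (hm : IsInt m) :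
    conjF D v (p + m) = conjF D v p + m := by
  let f : ℝ → E n := fun t => conjF D (t • v) (p + m) - conjF D (t • v) p
  have hf : Continuous f := by
    have h2 := (conjF_smooth2 D).continuous
    exact (h2.comp (Continuous.prodMk (f := fun t : ℝ => t • v) (g := fun _ => p + m)
      (by fun_prop) continuous_const)).sub
      (h2.comp (Continuous.prodMk (f := fun t : ℝ => t • v) (g := fun _ => p)
      (by fun_prop) continuous_const))
  have hint : ∀ t, IsInt (f t) := by
    intro t
    rw [← proj_eq_iff, proj_conjF, proj_conjF, proj_add_int p hm]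
  have := int_path_const hf hint 1 0
  simp only [f, one_smul, zero_smul, conjF_zero, add_sub_cancel_left] at this
  exact sub_eq_iff_eq_add'.1 this

lemma periodic_bounded {f : E n → ℝ} (hf : Continuous f)
    (hper : ∀ p m, IsInt m → f (p + m) = f p) : ∃ B, 0 ≤ B ∧ ∀ p, f p ≤ B := by
  obtain ⟨B, hB⟩ := (compact_cube (n := n)).bddAbove_image hf.continuousOn
  refine ⟨max B 0, le_max_right _ _, fun p => ?_⟩
  obtain ⟨m, hm, hmem⟩ := int_reduce p
  rw [← hper p m hm]
  exact (hB ⟨_, hmem, rfl⟩).trans (le_max_left _ _)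

lemma iterated_periodic (D : Diffeo n) (a b : E n) (k : ℕ) (p : E n) {m : E n} (hm : IsInt m) :
    iteratedFDeriv ℝ k (fun q => conjF D a q - conjF D b q) (p + m)
      = iteratedFDeriv ℝ k (fun q => conjF D a q - conjF D b q) p := by
  rw [← iteratedFDeriv_comp_add_right]
  congr 1
  funext q
  rw [conjF_add_int D a q hm, conjF_add_int D b q hm, add_sub_add_right_eq_sub]

lemma conj_diff_bounded (D : Diffeo n) (a b : E n) (k : ℕ) : ∃ B, 0 ≤ B ∧
    ∀ p, ‖iteratedFDeriv ℝ k (fun q => conjF D a q - conjF D b q) p‖ ≤ B := by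
  have hs : ContDiff ℝ ∞ (fun q => conjF D a q - conjF D b q) :=
    (conjF_smooth D a).sub (conjF_smooth D b)
  refine periodic_bounded (hs.continuous_iteratedFDeriv (mod_cast le_top)).norm ?_
  intro p m hm
  rw [iterated_periodic D a b k p hm]

lemma iterated_slice (D : Diffeo n) (k : ℕ) (v p : E n) :
    iteratedFDeriv ℝ k (conjF D v) p =
      (iteratedFDeriv ℝ k (fun vp : E n × E n => conjF D vp.1 vp.2) (v, p)).compContinuousLinearMap
        (fun _ => ContinuousLinearMap.inr ℝ (E n) (E n)) := by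
  have h1 : conjF D v = (fun z : E n × E n => conjF D ((v, (0:E n)) + z).1 ((v, (0:E n)) + z).2)
      ∘ (ContinuousLinearMap.inr ℝ (E n) (E n)) := by
    funext q; simp
  have hs : ContDiff ℝ ∞ (fun z : E n × E n => conjF D ((v, (0:E n)) + z).1 ((v, (0:E n)) + z).2) :=
    (conjF_smooth2 D).comp (contDiff_const.add contDiff_id)
  rw [h1, ContinuousLinearMap.iteratedFDeriv_comp_right _ hs p (mod_cast le_top),
    iteratedFDeriv_comp_add_left (f := fun vp : E n × E n => conjF D vp.1 vp.2)]
  simp

lemma slice_continuous (D : Diffeo n) (k : ℕ) {X : Type*} [TopologicalSpace X]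
    (g : X → E n × E n) (hg : Continuous g) :
    Continuous (fun x => (iteratedFDeriv ℝ k (fun vp : E n × E n => conjF D vp.1 vp.2)
      (g x)).compContinuousLinearMap (fun _ => ContinuousLinearMap.inr ℝ (E n) (E n))) :=
  (ContinuousMultilinearMap.compContinuousLinearMapL
      (fun _ : Fin k => ContinuousLinearMap.inr ℝ (E n) (E n))).continuous.comp
    (((conjF_smooth2 D).continuous_iteratedFDeriv (m := k) (mod_cast le_top)).comp hg)

lemma diff_continuous (D : Diffeo n) (v0 : E n) (k : ℕ) :
    Continuous (fun bp : E n × E n =>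
      iteratedFDeriv ℝ k (fun q => conjF D (v0 + bp.1) q - conjF D v0 q) bp.2) := by
  have e : ∀ bp : E n × E n,
      iteratedFDeriv ℝ k (fun q => conjF D (v0 + bp.1) q - conjF D v0 q) bp.2 =
        (iteratedFDeriv ℝ k (fun vp : E n × E n => conjF D vp.1 vp.2)
          (v0 + bp.1, bp.2)).compContinuousLinearMap
            (fun _ => ContinuousLinearMap.inr ℝ (E n) (E n))
        - (iteratedFDeriv ℝ k (fun vp : E n × E n => conjF D vp.1 vp.2)
          (v0, bp.2)).compContinuousLinearMap
            (fun _ => ContinuousLinearMap.inr ℝ (E n) (E n)) := by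
    intro bp
    rw [fun_iteratedFDeriv_sub_apply ((conjF_smooth D _).of_le (mod_cast le_top)).contDiffAt
      ((conjF_smooth D _).of_le (mod_cast le_top)).contDiffAt, iterated_slice, iterated_slice]
  refine Continuous.congr ?_ (fun bp => (e bp).symm)
  exact (slice_continuous D k _ (by fun_prop)).sub (slice_continuous D k _ (by fun_prop))

lemma tube_small (h : E n × E n → ℝ) (hc : Continuous h) (h0 : ∀ p, h (0, p) = 0)
    (hper : ∀ β p m, IsInt m → h (β, p + m) = h (β, p)) {ε : ℝ} (hε : 0 < ε) :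
    ∃ η > 0, ∀ β : E n, ‖β‖ < η → ∀ p, h (β, p) ≤ ε := by
  have hopen : IsOpen {bp : E n × E n | h bp < ε} := isOpen_lt hc continuous_const
  have hsub : ({0} : Set (E n)) ×ˢ ((univ.pi fun _ => Icc (0:ℝ) 1) ×ˢ (univ.pi fun _ => Icc (0:ℝ) 1))
      ⊆ {bp : E n × E n | h bp < ε} := by
    rintro ⟨b, p⟩ ⟨hb, -⟩
    obtain rfl : b = 0 := hb
    simp [h0, hε]
  obtain ⟨U, V, hU, -, hU0, hV, hUV⟩ :=
    generalized_tube_lemma isCompact_singleton compact_cube hopen hsub
  obtain ⟨η, hη, hball⟩ := Metric.isOpen_iff.1 hU 0 (hU0 rfl)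
  refine ⟨η, hη, fun β hβ p => ?_⟩
  obtain ⟨m, hm, hmem⟩ := int_reduce p
  rw [← hper β p m hm]
  exact le_of_lt (hUV (show (β, p + m) ∈ U ×ˢ V from ⟨hball (by simpa using hβ), hV hmem⟩))

/-- Perturbing the translation vector changes the conjugate little in `C^k`. -/
lemma conj_diff_small (D : Diffeo n) (v0 : E n) (k : ℕ) {ε : ℝ} (hε : 0 < ε) :
    ∃ η > 0, ∀ β : E n, ‖β‖ < η → ∀ p,
      ‖iteratedFDeriv ℝ k (fun q => conjF D (v0 + β) q - conjF D v0 q) p‖ ≤ ε := by
  refine tube_small (fun bp => ‖iteratedFDeriv ℝ k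
    (fun q => conjF D (v0 + bp.1) q - conjF D v0 q) bp.2‖) ?_ ?_ ?_ hε
  · exact (diff_continuous D v0 k).norm
  · intro p
    simp only [add_zero, sub_self, iteratedFDeriv_fun_zero, Pi.zero_apply, norm_zero]
  · intro β p m hm
    exact congrArg norm (iterated_periodic D _ _ k p hm)

end Vale.Agent.P109.Sol
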