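import Mathlib
import Vale.Agent.P109.Sol.Step

/-! The refining diffeomorphism of one step (P109). -/

open MeasureTheory Filter Topology Set
open scoped ContDiff

namespace Vale.Agent.P109.Sol

variable {n : ℕ}

/-- The integer data of a step. -/
structure Data (n : ℕ) where
  A : Mat n
  A' : Mat n
  U : Mat n
  U' : Mat n
  T : Mat n
  T' : Mat n
  C : Mat n
  m : ℕ
  hm : 0 < m
  hA : A * A' = 1
  hA' : A' * A = 1
  hU : U * U' = 1
  hU' : U' * U = 1
  hT : T * T' = 1
  hT' : T' * T = 1

namespace Data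

variable (d : Data n) (j : ℕ)

/-- The periodic shear profile. -/
noncomputable def prof (y : V n) : V n :=
  dinv d.m (mulR d.T (fun i => saw (dl j) (y i)))

lemma prof_smooth : ContDiff ℝ ∞ (d.prof j) := by
  have h : ContDiff ℝ ∞ (fun y : V n => fun i => saw (dl j) (y i)) :=
    contDiff_pi.2 fun i => (saw_smooth (dl_pos j) (dl_lt_one j)).comp (contDiff_apply ℝ ℝ i)
  exact (dinv_smooth d.m).comp ((contDiff_mulR d.T).comp h)

lemma prof_per (y m : V n) (hm : IsIntV m) : d.prof j (y + m) = d.prof j y := by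
  have : (fun i => saw (dl j) ((y + m) i)) = fun i => saw (dl j) (y i) := by
    funext i
    obtain ⟨a, ha⟩ := hm i
    rw [Pi.add_apply, ha, saw_add_int]
  rw [prof, prof, this]

/-- The refining diffeomorphism. -/
noncomputable def g : Diffeo n :=
  (diagAut d.A' d.A 1 1 d.hA' d.hA (one_mul _) (one_mul _)).comp
    ((unip d.C).comp
      ((diagAut 1 1 d.U d.U' (one_mul _) (one_mul _) d.hU d.hU').comp
        ((twist (Md d.m)).comp
          ((diagAut 1 1 d.T d.T' (one_mul _) (one_mul _) d.hT d.hT').comp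
            (shear (d.prof j) (d.prof_smooth j) (d.prof_per j))))))

lemma g_F (p : E n) :
    (d.g j).F p = (mulR d.A' (mulR (Md d.m) (p.1 + d.prof j p.2) - mulR d.T p.2),
      mulR d.U (p.1 + d.prof j p.2) +
        mulR d.C (mulR (Md d.m) (p.1 + d.prof j p.2) - mulR d.T p.2)) := by
  simp [g, Diffeo.comp, diagAut, unip, twist, shear, mulR_one]

/-- The linear part. -/
noncomputable def lin (r : E n) : E n :=
  (mulR d.A' (mulR (Md d.m) r.1 - mulR d.T r.2),
    mulR d.U r.1 + mulR d.C (mulR (Md d.m) r.1 - mulR d.T r.2))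

lemma g_step (p r : E n) (hr : IsIntV r.2) : (d.g j).F (p + r) = (d.g j).F p + d.lin r := by
  rw [g_F, g_F, lin]
  simp only [Prod.fst_add, Prod.snd_add, d.prof_per j _ _ hr]
  have e : p.1 + r.1 + d.prof j p.2 = (p.1 + d.prof j p.2) + r.1 := by abel
  rw [e]
  simp only [mulR_add, mulR_sub, Prod.mk_add_mk]
  refine Prod.ext ?_ ?_ <;> (simp only; abel)

/-- The inverse of the linear part. -/
noncomputable def linInv (q : E n) : E n :=
  let a := mulR d.U' (q.2 - mulR d.C (mulR d.A q.1))
  (a, mulR d.T' (mulR (Md d.m) a - mulR d.A q.1))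

lemma lin_linInv (q : E n) : d.lin (d.linInv q) = q := by
  simp only [lin, linInv, mulR_mul d.T d.T', d.hT, mulR_one, sub_sub_cancel,
    mulR_mul d.A' d.A, d.hA', mulR_mul d.U d.U', d.hU, sub_add_cancel]

lemma linInv_proj {v v' : Tr n} (hM : mulT (Md d.m) v' = mulT d.A v) {q : E n}
    (hq : proj q = (v, mulT d.U v' + mulT d.C (mulT d.A v))) :
    proj (d.linInv q) = (v', 0) := by
  simp only [proj_apply, Prod.mk.injEq] at hq
  obtain ⟨h1, h2⟩ := hq
  have ha : projV (mulR d.U' (q.2 - mulR d.C (mulR d.A q.1))) = v' := by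
    simp only [projV_mulR, projV_sub, h1, h2, add_sub_cancel_right, mulT_mul d.U', d.hU', mulT_one]
  simp only [linInv, proj_apply]
  refine Prod.ext ha ?_
  show projV (mulR d.T' (mulR (Md d.m) _ - mulR d.A q.1)) = 0
  rw [projV_mulR, projV_sub, projV_mulR, ha, projV_mulR, h1, hM, sub_self]
  funext i; simp [mulT]

/-- The part of the old coordinates not seen by the new first half. -/
noncomputable def defect (y : V n) : V n := mulR d.U (dinv d.m (mulR d.T y))

/-- Points where the shear is not exact. -/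
def BadY (δ : ℝ) (y : V n) : Prop := ∃ i, 1 - δ < Int.fract (y i)

lemma g_good (p : E n) (h : ¬ BadY (dl j) p.2) :
    (d.g j).e (proj p) = (mulT (d.A' * Md d.m) (projV p.1),
      mulT (d.U + d.C * Md d.m) (projV p.1) +
        projV (d.defect (fun i => Int.fract (p.2 i)))) := by
  simp only [BadY, not_exists, not_lt] at h
  have hsaw : (fun i => saw (dl j) (p.2 i)) = fun i => Int.fract (p.2 i) :=
    funext fun i => saw_flat (dl_pos j) (h i)
  have hint : projV (mulR (Md d.m) (p.1 + d.prof j p.2) - mulR d.T p.2) =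
      projV (mulR (Md d.m) p.1) := by
    rw [projV_eq_iff, prof, hsaw, mulR_add, Md_dinv d.hm]
    have e : mulR (Md d.m) p.1 + mulR d.T (fun i => Int.fract (p.2 i)) - mulR d.T p.2
        - mulR (Md d.m) p.1 = mulR d.T ((fun i => Int.fract (p.2 i)) - p.2) := by
      rw [mulR_sub]; abel
    rw [e]
    refine mulR_isInt _ fun i => ⟨-⌊p.2 i⌋, ?_⟩
    rw [Pi.sub_apply, ← Int.self_sub_floor]; push_cast; ring
  rw [← (d.g j).hF, g_F, proj_apply]
  simp only [projV_add, projV_mulR d.A', projV_mulR d.C, hint]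
  refine Prod.ext ?_ ?_
  · show mulT d.A' (projV (mulR (Md d.m) p.1)) = _
    rw [projV_mulR, mulT_mul]
  · show projV (mulR d.U (p.1 + d.prof j p.2)) + mulT d.C (projV (mulR (Md d.m) p.1)) = _
    rw [mulR_add, projV_add, projV_mulR (Md d.m), mulT_mul, projV_mulR d.U p.1]
    have e : mulT (d.U + d.C * Md d.m) (projV p.1) =
        mulT d.U (projV p.1) + mulT (d.C * Md d.m) (projV p.1) := by
      funext i; simp [mulT, add_smul, Finset.sum_add_distrib]
    rw [e, prof, hsaw]
    show _ = _ + projV (mulR d.U (dinv d.m (mulR d.T _)))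
    abel

end Data

/-- The unipotent part can make the vertical translation as small as we like. -/
lemma exists_small_w (u b : Tr n) (hb : ∀ k : ℤ, k • b (Fin.last n) = 0 → k = 0) {η : ℝ}
    (hη : 0 < η) : ∃ C : Mat n, ∀ i, ‖(u + mulT C b) i‖ < η := by
  have : Fact ((0:ℝ) < 1) := ⟨one_pos⟩
  have hd : DenseRange (fun k : ℤ => k • b (Fin.last n)) := by
    rw [AddCircle.denseRange_zsmul_iff, addOrderOf_eq_zero_iff, isOfFinAddOrder_iff_zsmul_eq_zero]
    rintro ⟨k, hk, hk0⟩
    exact hk (hb k hk0)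
  choose k hk using fun i => hd.exists_dist_lt (-(u i)) hη
  refine ⟨fun i l => if l = Fin.last n then k i else 0, fun i => ?_⟩
  have e : (u + mulT (fun i l => if l = Fin.last n then k i else 0) b) i
      = -( -(u i) - k i • b (Fin.last n)) := by
    simp [mulT, ite_smul]; abel
  rw [e, norm_neg, ← dist_eq_norm]
  exact hk i

end Vale.Agent.P109.Sol
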