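import Mathlib
import Vale.Agent.P109.Sol.Conj
import Vale.Agent.P109.Sol.Limit
import Vale.Agent.P109.Sol.Refine

/-! The sequence of conjugated translations adapted to a finite rank group of frequencies (P109). -/

open MeasureTheory Filter Topology Set
open scoped ContDiff

namespace Vale.Agent.P109.Sol

/-- A torsion free, finite rank, not finitely generated group of circle points, enumerated. -/
structure Grp (n : ℕ) where
  Γ : AddSubgroup UnitAddCircle
  htf : ∀ x ∈ Γ, ∀ k : ℤ, k ≠ 0 → k • x = 0 → x = 0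
  v0 : Tr n
  hv0 : ∀ i, v0 i ∈ Γ
  hind : Indep v0
  hspan : ∀ γ ∈ Γ, ∃ k : ℕ, 0 < k ∧ ∃ c, psi v0 c = (k : ℤ) • γ
  nfg : ¬ Γ.FG
  enum : ℕ → UnitAddCircle
  enum_mem : ∀ i, enum i ∈ Γ
  enum_surj : ∀ γ ∈ Γ, ∃ i, enum i = γ

namespace Grp

variable {n : ℕ} (H : Grp n)

/-- The data carried from one stage to the next. -/
structure St where
  D : Diffeo n
  v : Tr n
  hv : ∀ i, v i ∈ H.Γ
  hind : Indep v
  hspan : ∀ γ ∈ H.Γ, ∃ k : ℕ, 0 < k ∧ ∃ c, psi v c = (k : ℤ) • γ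
  r : E n
  hr : proj r = (v, 0)

variable {H}

/-- Everything required of the next stage. -/
structure Next (j : ℕ) (s : H.St) where
  d : Data n
  v' : Tr n
  β : E n
  hM : mulT (Md d.m) v' = mulT d.A s.v
  hw : proj (s.r + β) = (s.v, mulT d.U v' + mulT d.C (mulT d.A s.v))
  hv' : ∀ i, v' i ∈ H.Γ
  hind' : Indep v'
  hspan' : ∀ γ ∈ H.Γ, ∃ k : ℕ, 0 < k ∧ ∃ c, psi v' c = (k : ℤ) • γ
  smallF : ∀ k ≤ j, ∀ p, ‖iteratedFDeriv ℝ k
    (fun x => conjF s.D (s.r + β) x - conjF s.D s.r x) p‖ ≤ (1/2 : ℝ) ^ j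
  smallG : ∀ k ≤ j, ∀ p, ‖iteratedFDeriv ℝ k
    (fun x => conjF s.D (-s.r + -β) x - conjF s.D (-s.r) x) p‖ ≤ (1/2 : ℝ) ^ j
  cover : j % 2 = 0 → ∃ c, psi v' c = H.enum (j / 2)
  squeeze : j % 2 = 1 → ∀ (z : TT n) (y : V n), (∀ i, |y i| ≤ 1) →
    dist (s.D.e (z.1, z.2 + projV (d.defect y))) (s.D.e z) ≤ (1/2 : ℝ) ^ j

lemma big_order (s : H.St) (N : ℕ) :
    ∃ γ ∈ H.Γ, ∀ k : ℕ, 0 < k → k ≤ N → ¬ ∃ c, psi s.v c = (k : ℤ) • γ := by
  by_contra hcon
  push Not at hcon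
  have hfac : ∀ γ : H.Γ, ∃ c, psi s.v c = ((N.factorial : ℕ) : ℤ) • (γ : UnitAddCircle) := by
    intro γ
    obtain ⟨k, hk, hkN, c, hc⟩ := hcon γ γ.2
    obtain ⟨q, hq⟩ := Nat.dvd_factorial hk hkN
    refine ⟨(q : ℤ) • c, ?_⟩
    rw [psi_smul, hc, smul_smul, hq]
    push_cast; ring_nf
  choose f hf using hfac
  have hfac0 : ((N.factorial : ℕ) : ℤ) ≠ 0 := by exact_mod_cast N.factorial_ne_zero
  let φ : H.Γ →+ (Fin (n + 1) → ℤ) := AddMonoidHom.mk' f fun a b => by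
    apply s.hind.injective
    simp only [psi_addc, hf, AddSubgroup.coe_add, smul_add]
  have hinj : Function.Injective φ := by
    intro a b hab
    have : ((N.factorial : ℕ) : ℤ) • ((a : UnitAddCircle) - b) = 0 := by
      rw [smul_sub, ← hf, ← hf, show f a = f b from hab, sub_self]
    exact Subtype.ext (sub_eq_zero.1 (H.htf _ (H.Γ.sub_mem a.2 b.2) _ hfac0 this))
  have : Module.Finite ℤ H.Γ := Module.Finite.of_injective φ.toIntLinearMap hinj
  exact H.nfg ((AddGroup.fg_iff_addSubgroup_fg H.Γ).1 (Module.Finite.iff_addGroup_fg.1 this))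

lemma exists_rep_norm (t : UnitAddCircle) : ∃ x : ℝ, (x : UnitAddCircle) = t ∧ |x| = ‖t‖ := by
  obtain ⟨x, rfl⟩ := QuotientAddGroup.mk_surjective t
  refine ⟨x - round x, ?_, ?_⟩
  · rw [AddCircle.coe_sub, sub_eq_self, AddCircle.coe_eq_zero_iff]
    exact ⟨round x, by simp⟩
  · rw [UnitAddCircle.norm_eq]

lemma next_exists (j : ℕ) (s : H.St) : Nonempty (Next j s) := by
  classical
  have hε : (0:ℝ) < (1/2) ^ j := by positivity
  -- size of the perturbation
  obtain ⟨η, hη, hsmall⟩ : ∃ η > 0, ∀ β : E n, ‖β‖ < η → ∀ k ≤ j, ∀ p,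
      ‖iteratedFDeriv ℝ k (fun x => conjF s.D (s.r + β) x - conjF s.D s.r x) p‖ ≤ (1/2 : ℝ) ^ j ∧
      ‖iteratedFDeriv ℝ k (fun x => conjF s.D (-s.r + -β) x - conjF s.D (-s.r) x) p‖
        ≤ (1/2 : ℝ) ^ j := by
    have h : ∀ᶠ β in 𝓝 (0 : E n), ∀ k ∈ Finset.range (j + 1), ∀ p,
        ‖iteratedFDeriv ℝ k (fun x => conjF s.D (s.r + β) x - conjF s.D s.r x) p‖ ≤ (1/2 : ℝ) ^ j ∧
        ‖iteratedFDeriv ℝ k (fun x => conjF s.D (-s.r + -β) x - conjF s.D (-s.r) x) p‖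
          ≤ (1/2 : ℝ) ^ j := by
      refine (Finset.range (j + 1)).eventually_all.2 fun k _ => ?_
      obtain ⟨η1, h1, g1⟩ := conj_diff_small s.D s.r k hε
      obtain ⟨η2, h2, g2⟩ := conj_diff_small s.D (-s.r) k hε
      filter_upwards [Metric.ball_mem_nhds 0 (lt_min h1 h2)] with β hβ p
      rw [mem_ball_zero_iff, lt_min_iff] at hβ
      exact ⟨g1 β hβ.1 p, g2 (-β) (by rw [norm_neg]; exact hβ.2) p⟩
    obtain ⟨η, hη, hball⟩ := Metric.eventually_nhds_iff.1 h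
    exact ⟨η, hη, fun β hβ k hk p => hball (by simpa using hβ) k (Finset.mem_range.2 (by omega)) p⟩
  -- modulus of continuity
  obtain ⟨μ, hμ, hmod⟩ := Metric.uniformContinuous_iff.1
    (CompactSpace.uniformContinuous_of_continuous s.D.e.continuous) _ hε
  obtain ⟨a, ha, haμ⟩ : ∃ a : ℕ, 3 ≤ a ∧ 2 / ((a:ℝ) - 2) < μ := by
    obtain ⟨a, ha⟩ := exists_nat_gt (2 / μ + 2)
    refine ⟨max a 3, le_max_right _ _, ?_⟩
    have : (a:ℝ) ≤ (max a 3 : ℕ) := by exact_mod_cast le_max_left _ _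
    rw [div_lt_iff₀ (by have := div_pos two_pos hμ; linarith), mul_comm, ← div_lt_iff₀ hμ]
    linarith
  -- the element to adjoin
  obtain ⟨γ, hγ, hγodd⟩ : ∃ γ ∈ H.Γ, (j % 2 = 0 → γ = H.enum (j / 2)) ∧
      (j % 2 = 1 → ∀ k : ℕ, 0 < k → k ≤ a ^ (n + 1) → ¬ ∃ c, psi s.v c = (k : ℤ) • γ) := by
    by_cases hj : j % 2 = 0
    · exact ⟨H.enum (j / 2), H.enum_mem _, fun _ => rfl, fun h => by omega⟩
    · obtain ⟨γ, hγ, h⟩ := big_order s (a ^ (n + 1))
      exact ⟨γ, hγ, fun h' => absurd h' hj, fun _ => h⟩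
  set P : ℕ → Prop := fun k => 0 < k ∧ ∃ c, psi s.v c = (k : ℤ) • γ with hP
  have hex : ∃ k, P k := s.hspan γ hγ
  set m := Nat.find hex
  obtain ⟨hm, hmem⟩ : P m := Nat.find_spec hex
  obtain ⟨A, A', v', hA, hA', hv', hind', hM, c', hc'⟩ := exists_refine H.Γ H.htf s.v s.hv s.hind
    γ hγ m hm hmem (fun k hk hkm hk' => Nat.find_min hex hkm ⟨hk, hk'⟩)
  obtain ⟨U, U', T, T', hU, hU', hT, hT', hsq⟩ : ∃ U U' T T' : Mat n,
      U * U' = 1 ∧ U' * U = 1 ∧ T * T' = 1 ∧ T' * T = 1 ∧ (j % 2 = 1 → ∀ y : V n,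
        (∀ i, |y i| ≤ 1) → ∀ i, |mulR U (dinv m (mulR T y)) i| ≤ 2 / ((a:ℝ) - 2)) := by
    by_cases hj : j % 2 = 1
    · have hbig : a ^ (n + 1) ≤ m := by
        by_contra hlt
        exact hγodd.2 hj m hm (by omega) hmem
      obtain ⟨U, U', T, T', h1, h2, h3, h4, h5⟩ := exists_squeeze a m ha hbig
      exact ⟨U, U', T, T', h1, h2, h3, h4, fun _ => h5⟩
    · exact ⟨1, 1, 1, 1, one_mul _, one_mul _, one_mul _, one_mul _, fun h => absurd h hj⟩
  have hb : ∀ k : ℤ, k • mulT A s.v (Fin.last n) = 0 → k = 0 := by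
    intro k hk
    by_contra hk0
    have h0 := H.htf _ (H.Γ.sum_mem fun i _ => H.Γ.zsmul_mem (s.hv i) _) k hk0 hk
    have h1 := s.hind (A (Fin.last n)) h0
    have h2 := congrArg (fun M : Mat n => M (Fin.last n) (Fin.last n)) hA
    simp [Matrix.mul_apply, h1] at h2
  obtain ⟨C, hC⟩ := exists_small_w (mulT U v') (mulT A s.v) hb hη
  choose ŵ hŵ hŵn using fun i => exists_rep_norm ((mulT U v' + mulT C (mulT A s.v)) i)
  let β : E n := (0, ŵ)
  have hβ : ‖β‖ < η := by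
    rw [Prod.norm_def, norm_zero, max_eq_right (norm_nonneg _), pi_norm_lt_iff hη]
    intro i
    rw [Real.norm_eq_abs, hŵn i]
    exact hC i
  refine ⟨⟨⟨A, A', U, U', T, T', C, m, hm, hA, hA', hU, hU', hT, hT'⟩, v', β, hM, ?_, hv', hind', ?_,
    fun k hk p => (hsmall β hβ k hk p).1, fun k hk p => (hsmall β hβ k hk p).2,
    fun hj => ⟨c', by rw [hc', hγodd.1 hj]⟩, ?_⟩⟩
  · rw [proj_add, s.hr]
    refine Prod.ext ?_ ?_
    · show s.v + projV (0 : V n) = s.v
      rw [projV_zero, add_zero]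
    · show (0 : Tr n) + projV ŵ = _
      rw [zero_add]; exact funext hŵ
  · intro δ hδ
    obtain ⟨k, hk, c, hc⟩ := s.hspan δ hδ
    refine ⟨k, hk, Matrix.vecMul c (A' * Md m), ?_⟩
    rw [← psi_mulT, ← mulT_mul, hM, mulT_mul, hA', mulT_one, hc]
  · intro hj z y hy
    refine (hmod ?_).le
    rw [Prod.dist_eq, dist_self, max_eq_right dist_nonneg, dist_eq_norm, add_sub_cancel_left]
    rw [pi_norm_lt_iff hμ]
    intro i
    refine lt_of_le_of_lt ?_ (lt_of_le_of_lt (hsq hj y hy i) haμ)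
    exact QuotientAddGroup.norm_mk_le_norm

/-- The chosen step. -/
noncomputable def nxt (j : ℕ) (s : H.St) : Next j s := (next_exists j s).some

lemma linInv_snd (j : ℕ) (s : H.St) :
    proj ((nxt j s).d.linInv (s.r + (nxt j s).β)) = ((nxt j s).v', 0) :=
  (nxt j s).d.linInv_proj (nxt j s).hM (nxt j s).hw

variable (H)

/-- The stages. -/
noncomputable def st : ℕ → H.St
  | 0 => ⟨Diffeo.refl, H.v0, H.hv0, H.hind, H.hspan,
      (fun i => (AddCircle.measurableEquivIco 1 0 (H.v0 i) : ℝ), 0), by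
        refine Prod.ext (funext fun i => ?_) ?_
        · exact (AddCircle.measurableEquivIco (1:ℝ) 0).left_inv (H.v0 i)
        · exact projV_zero⟩
  | j + 1 => ⟨(st j).D.comp ((nxt j (st j)).d.g j), (nxt j (st j)).v', (nxt j (st j)).hv',
      (nxt j (st j)).hind', (nxt j (st j)).hspan',
      (nxt j (st j)).d.linInv ((st j).r + (nxt j (st j)).β), linInv_snd j (st j)⟩

noncomputable def D (j : ℕ) : Diffeo n := (H.st j).D

noncomputable def v (j : ℕ) : Tr n := (H.st j).v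

noncomputable def r (j : ℕ) : E n := (H.st j).r

noncomputable def stp (j : ℕ) : Next j (H.st j) := nxt j (H.st j)

noncomputable def g (j : ℕ) : Diffeo n := (H.stp j).d.g j

lemma D_succ (j : ℕ) : H.D (j + 1) = (H.D j).comp (H.g j) := rfl

lemma g_r (j : ℕ) (p : E n) :
    (H.g j).F (p + H.r (j + 1)) = (H.g j).F p + (H.r j + (H.stp j).β) := by
  have hint : IsIntV (H.r (j + 1)).2 := by
    rw [← projV_eq_zero]
    exact congrArg Prod.snd (H.st (j + 1)).hr
  rw [g, (H.stp j).d.g_step j p _ hint]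
  exact congrArg _ ((H.stp j).d.lin_linInv _)

noncomputable def cF (j : ℕ) : E n → E n := conjF (H.D j) (H.r j)

noncomputable def cG (j : ℕ) : E n → E n := conjF (H.D j) (-H.r j)

lemma cF_succ (j : ℕ) : H.cF (j + 1) = conjF (H.D j) (H.r j + (H.stp j).β) := by
  funext p
  simp only [cF, conjF, H.D_succ, Diffeo.comp, Function.comp_apply]
  rw [H.g_r, (H.g j).FG]

lemma cG_succ (j : ℕ) : H.cG (j + 1) = conjF (H.D j) (-H.r j + -(H.stp j).β) := by
  funext p
  simp only [cG, conjF, H.D_succ, Diffeo.comp, Function.comp_apply]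
  congr 1
  have h := H.g_r j ((H.g j).G ((H.D j).G p) + -H.r (j + 1))
  rw [neg_add_cancel_right, (H.g j).FG] at h
  rw [← neg_add]
  exact eq_add_neg_of_add_eq h.symm

noncomputable def seqF : FastSeq n where
  c := H.cF
  smooth _ := conjF_smooth _ _
  small j k hk p := by rw [H.cF_succ]; exact (H.stp j).smallF k hk p
  bdd j k := by rw [H.cF_succ]; exact conj_diff_bounded _ _ _ k
  equi _ p _ hm := conjF_add_int _ _ p hm

noncomputable def seqG : FastSeq n where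
  c := H.cG
  smooth _ := conjF_smooth _ _
  small j k hk p := by rw [H.cG_succ]; exact (H.stp j).smallG k hk p
  bdd j k := by rw [H.cG_succ]; exact conj_diff_bounded _ _ _ k
  equi _ p _ hm := conjF_add_int _ _ p hm

lemma cFG (j : ℕ) (p : E n) : H.cF j (H.cG j p) = p := conjF_inv (H.D j) (H.r j) p

lemma cGF (j : ℕ) (p : E n) : H.cG j (H.cF j p) = p := by
  simpa [cF, cG] using conjF_inv (H.D j) (-H.r j) p

/-- The diffeomorphism realising the rotation. -/
noncomputable def S : TT n ≃ₜ TT n := H.seqF.homeo H.seqG H.cFG H.cGF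

/-- The approximations. -/
noncomputable def T (j : ℕ) (z : TT n) : TT n := (H.D j).e ((H.D j).e.symm z + proj (H.r j))

lemma T_proj (j : ℕ) (p : E n) : H.T j (proj p) = proj (H.cF j p) := (proj_conjF _ _ _).symm

lemma T_mp (j : ℕ) : MeasurePreserving (H.T j) volume volume :=
  (H.D j).mp.comp (((measurePreserving_add_right (volume : Measure (Tr n)) (proj (H.r j)).1).prod
    (measurePreserving_add_right (volume : Measure (Tr n)) (proj (H.r j)).2)).comp (H.D j).symm.mp)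

lemma T_tendsto (z : TT n) : Tendsto (fun j => H.T j z) atTop (𝓝 (H.S z)) :=
  H.seqF.tendsto_onTorus _ H.T_proj z

lemma S_mp : MeasurePreserving H.S volume volume :=
  mp_of_tendsto H.T_mp H.S.continuous H.T_tendsto

lemma S_lift (p : E n) : H.S (proj p) = proj (H.seqF.lim p) := H.seqF.onTorus_proj p

lemma S_symm_lift (p : E n) : H.S.symm (proj p) = proj (H.seqG.lim p) := H.seqG.onTorus_proj p

/-- Coordinates of stage `j`. -/
noncomputable def pt (j : ℕ) (z : TT n) : TT n := (H.D j).e.symm z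

lemma continuous_pt (j : ℕ) : Continuous (H.pt j) := (H.D j).e.symm.continuous

lemma pt_succ (j : ℕ) (z : TT n) : (H.g j).e (H.pt (j + 1) z) = H.pt j z := by
  simp [pt, H.D_succ, Diffeo.comp]

lemma pt_T (j : ℕ) (z : TT n) : H.pt j (H.T j z) = H.pt j z + (H.v j, 0) := by
  simp only [pt, T, Homeomorph.symm_apply_apply]
  rw [show proj (H.r j) = (H.v j, 0) from (H.st j).hr]

lemma pt_mp (j : ℕ) : MeasurePreserving (H.pt j) volume volume := (H.D j).symm.mp

lemma v_succ (j : ℕ) :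
    mulT ((H.stp j).d.A' * Md (H.stp j).d.m) (H.v (j + 1)) = H.v j := by
  rw [← mulT_mul, show H.v (j + 1) = (H.stp j).v' from rfl, (H.stp j).hM, mulT_mul,
    (H.stp j).d.hA', mulT_one]
  rfl

lemma range_mono {i j : ℕ} (h : i ≤ j) {γ : UnitAddCircle} (hc : ∃ c, psi (H.v i) c = γ) :
    ∃ c, psi (H.v j) c = γ := by
  induction h with
  | refl => exact hc
  | @step j _ ih =>
    obtain ⟨c, hc⟩ := ih
    exact ⟨_, by rw [← psi_mulT, H.v_succ, hc]⟩

end Grp

end Vale.Agent.P109.Sol
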