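import Mathlib
import Vale.Agent.P109.Sol.Tower
import Vale.Agent.P109.Index

/-! The isomorphism between the limit diffeomorphism and the rotation of the dual group (P109). -/

open MeasureTheory Filter Topology Set
open scoped ContDiff ENNReal

namespace Vale.Agent.P109.Sol

/-- The dual group: additive maps to the circle. -/
abbrev Dual (Γ : AddSubgroup UnitAddCircle) : Type :=
  {χ : Γ → UnitAddCircle // ∀ a b, χ (a + b) = χ a + χ b}

namespace Grp

variable {n : ℕ} (H : Grp n)

/-- A stage at which a given frequency is available. -/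
lemma covered (γ : H.Γ) : ∃ m, ∀ j ≥ m, ∃ c, psi (H.v j) c = (γ : UnitAddCircle) := by
  obtain ⟨i, hi⟩ := H.enum_surj γ γ.2
  refine ⟨2 * i + 1, fun j hj => H.range_mono hj ?_⟩
  obtain ⟨c, hc⟩ := (H.stp (2 * i)).cover (by omega)
  refine ⟨c, ?_⟩
  rw [← hi, show H.v (2 * i + 1) = (H.stp (2 * i)).v' from rfl, hc]
  congr 1; omega

noncomputable def lvl (γ : H.Γ) : ℕ := (H.covered γ).choose

lemma lvl_spec (γ : H.Γ) {j : ℕ} (hj : H.lvl γ ≤ j) : ∃ c, psi (H.v j) c = (γ : UnitAddCircle) :=
  (H.covered γ).choose_spec j hj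

open Classical in
/-- Stage `j` approximation of the value at `γ`. -/
noncomputable def W (j : ℕ) (γ : H.Γ) (z : TT n) : UnitAddCircle :=
  if h : ∃ c, psi (H.v j) c = (γ : UnitAddCircle) then psi (H.pt j z).1 h.choose else 0

lemma continuous_W (j : ℕ) (γ : H.Γ) : Continuous (H.W j γ) := by
  unfold W
  split_ifs with h
  · unfold psi
    exact continuous_finsetSum _ fun i _ =>
      Continuous.zsmul ((continuous_apply i).comp (continuous_fst.comp (H.continuous_pt j))) _
  · exact continuous_const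

lemma W_eq {j : ℕ} {γ : H.Γ} {c : Fin (n + 1) → ℤ} (hc : psi (H.v j) c = (γ : UnitAddCircle))
    (z : TT n) : H.W j γ z = psi (H.pt j z).1 c := by
  have h : ∃ c, psi (H.v j) c = (γ : UnitAddCircle) := ⟨c, hc⟩
  rw [W, dif_pos h, (H.st j).hind.injective (h.choose_spec.trans hc.symm)]

lemma W_add {j : ℕ} {a b : H.Γ} (ha : H.lvl a ≤ j) (hb : H.lvl b ≤ j) (z : TT n) :
    H.W j (a + b) z = H.W j a z + H.W j b z := by
  obtain ⟨c, hc⟩ := H.lvl_spec a ha
  obtain ⟨d, hd⟩ := H.lvl_spec b hb
  rw [H.W_eq hc, H.W_eq hd, H.W_eq (c := c + d) (by rw [psi_addc, hc, hd]; rfl), psi_addc]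

lemma W_T {j : ℕ} {γ : H.Γ} (h : H.lvl γ ≤ j) (z : TT n) :
    H.W j γ (H.T j z) = H.W j γ z + (γ : UnitAddCircle) := by
  obtain ⟨c, hc⟩ := H.lvl_spec γ h
  rw [H.W_eq hc, H.W_eq hc, H.pt_T, Prod.fst_add, psi_add, hc]

/-- Exceptional set of step `j`. -/
def B (j : ℕ) : Set (TT n) :=
  H.pt (j + 1) ⁻¹' {u | ∃ i, 1 - dl j <
    Int.fract ((AddCircle.measurableEquivIco 1 0 (u.2 i) : ℝ))}

lemma measurableSet_B (j : ℕ) : MeasurableSet (H.B j) := by
  refine (H.continuous_pt _).measurable ?_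
  rw [setOf_exists]
  exact MeasurableSet.iUnion fun i => measurableSet_lt measurable_const (by fun_prop)

lemma B_small (j : ℕ) : volume (H.B j) ≤ ENNReal.ofReal ((n + 1 : ℕ) * dl j) := by
  have hm : ∀ i : Fin (n + 1), MeasurableSet {u : TT n | 1 - dl j <
      Int.fract ((AddCircle.measurableEquivIco 1 0 (u.2 i) : ℝ))} := fun i =>
    measurableSet_lt measurable_const (by fun_prop)
  rw [B, setOf_exists,
    (H.pt_mp (j + 1)).measure_preimage (MeasurableSet.iUnion hm).nullMeasurableSet]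
  refine (measure_iUnion_fintype_le _ _).trans ?_
  rw [ENNReal.ofReal_mul (by positivity), ENNReal.ofReal_natCast]
  refine (Finset.sum_le_card_nsmul Finset.univ _ (ENNReal.ofReal (dl j)) fun i _ => ?_).trans
    (le_of_eq (by simp))
  set A : Set UnitAddCircle := {c | Int.fract (((1:ℕ):ℝ) *
    (AddCircle.measurableEquivIco 1 0 c : ℝ)) ∈ Ioo (1 - dl j) 1}
  have hA : MeasurableSet A := by
    have : Measurable fun c : UnitAddCircle =>
        Int.fract (((1:ℕ):ℝ) * (AddCircle.measurableEquivIco 1 0 c : ℝ)) := by fun_prop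
    exact this measurableSet_Ioo
  have : IsProbabilityMeasure (volume : Measure UnitAddCircle) := ⟨by simp⟩
  have he : MeasurePreserving (fun u : TT n => u.2 i) volume volume :=
    (measurePreserving_eval (fun _ : Fin (n + 1) => (volume : Measure UnitAddCircle)) i).comp
      measurePreserving_snd
  refine (measure_mono (show {u : TT n | 1 - dl j <
      Int.fract ((AddCircle.measurableEquivIco 1 0 (u.2 i) : ℝ))} ⊆ (fun u => u.2 i) ⁻¹' A from
    fun u hu => ⟨by simpa using hu, Int.fract_lt_one _⟩)).trans ?_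
  rw [he.measure_preimage hA.nullMeasurableSet]
  refine (circle_small 1 one_pos _ measurableSet_Ioo (1 - dl j) 1
    (by linarith [dl_lt_one j]) Ioo_subset_Icc_self).trans ?_
  rw [sub_sub_cancel]

/-- Exceptional set of all steps from `m` on. -/
def Tail (m : ℕ) : Set (TT n) := ⋃ l : ℕ, H.B (l + m)

lemma measurableSet_Tail (m : ℕ) : MeasurableSet (H.Tail m) :=
  MeasurableSet.iUnion fun _ => H.measurableSet_B _

lemma Tail_small (m : ℕ) :
    volume (H.Tail m) ≤ ENNReal.ofReal ((n + 1 : ℕ) * (1/2 : ℝ) ^ m) := by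
  refine (measure_iUnion_le _).trans ((ENNReal.tsum_le_tsum fun l => H.B_small _).trans ?_)
  have hs : HasSum (fun l : ℕ => ((n + 1 : ℕ) : ℝ) * dl (l + m)) ((n + 1 : ℕ) * (1/2 : ℝ) ^ m) := by
    have h2 := (hasSum_geometric_two' (1 : ℝ)).mul_left (((n + 1 : ℕ) : ℝ) * (1/2 : ℝ) ^ m)
    rw [mul_one] at h2
    refine h2.congr_fun fun l => ?_
    simp only [dl, pow_add, pow_one, div_pow, one_pow]
    ring
  rw [← ENNReal.ofReal_tsum_of_nonneg (fun l => by have := dl_pos (l + m); positivity) hs.summable,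
    hs.tsum_eq]

/-- At a good point the first coordinates of consecutive stages are exactly related. -/
lemma pt_fst {j : ℕ} {z : TT n} (hz : z ∉ H.B j) :
    ∃ y : V n, (∀ i, |y i| ≤ 1) ∧ H.pt j z =
      (mulT ((H.stp j).d.A' * Md (H.stp j).d.m) (H.pt (j + 1) z).1,
       mulT ((H.stp j).d.U + (H.stp j).d.C * Md (H.stp j).d.m) (H.pt (j + 1) z).1
         + projV ((H.stp j).d.defect y)) := by
  obtain ⟨x, hx⟩ := projV_open.surjective (H.pt (j + 1) z).1
  set y0 : V n := fun i => (AddCircle.measurableEquivIco 1 0 ((H.pt (j + 1) z).2 i) : ℝ)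
  have hy : projV y0 = (H.pt (j + 1) z).2 :=
    funext fun i => (AddCircle.measurableEquivIco (1:ℝ) 0).left_inv _
  have hgood : ¬ Data.BadY (dl j) y0 := fun h => hz h
  refine ⟨fun i => Int.fract (y0 i), fun i => ?_, ?_⟩
  · rw [abs_of_nonneg (Int.fract_nonneg _)]; exact (Int.fract_lt_one _).le
  · have e : proj (x, y0) = H.pt (j + 1) z := Prod.ext hx hy
    rw [← H.pt_succ j z, ← e]
    have h2 := (H.stp j).d.g_good j (x, y0) hgood
    rw [show (proj (x, y0)).1 = projV x from rfl]
    exact h2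

lemma W_step {γ : H.Γ} {j : ℕ} (h : H.lvl γ ≤ j) {z : TT n} (hz : z ∉ H.B j) :
    H.W (j + 1) γ z = H.W j γ z := by
  obtain ⟨c, hc⟩ := H.lvl_spec γ h
  obtain ⟨y, -, hy⟩ := H.pt_fst hz
  rw [H.W_eq hc, hy, psi_mulT, ← H.W_eq]
  rw [← psi_mulT, H.v_succ, hc]

lemma W_stable {γ : H.Γ} {m j : ℕ} (hn : H.lvl γ ≤ m) (hm : m ≤ j) {z : TT n} (hz : z ∉ H.Tail m) :
    H.W j γ z = H.W m γ z := by
  induction j, hm using Nat.le_induction with
  | base => rfl
  | succ j hj ih =>
    rw [H.W_step (hn.trans hj), ih]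
    intro hB
    exact hz (mem_iUnion.2 ⟨j - m, by rwa [Nat.sub_add_cancel hj]⟩)

lemma ae_eventually_tail : ∀ᵐ z ∂(volume : Measure (TT n)), ∀ᶠ m in atTop, z ∉ H.Tail m := by
  apply ae_eventually_notMem
  refine ne_top_of_le_ne_top ?_ (ENNReal.tsum_le_tsum fun m => H.Tail_small m)
  rw [← ENNReal.ofReal_tsum_of_nonneg (fun m => by positivity)
    (summable_geometric_two.mul_left _)]
  exact ENNReal.ofReal_ne_top

/-- Points which are eventually good. -/
def GoodPts : Set (TT n) := {z | ∀ᶠ m in atTop, z ∉ H.Tail m}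

lemma measurableSet_GoodPts : MeasurableSet H.GoodPts := by
  simp only [GoodPts, eventually_atTop, setOf_exists, setOf_forall]
  exact MeasurableSet.iUnion fun a => MeasurableSet.iInter fun b => MeasurableSet.iInter fun _ =>
    (H.measurableSet_Tail b).compl

noncomputable def phi0 (z : TT n) (γ : H.Γ) : UnitAddCircle :=
  H.GoodPts.indicator (fun z => limUnder atTop (fun j => H.W j γ z)) z

lemma phi0_eq {z : TT n} (hg : z ∈ H.GoodPts) {γ : H.Γ} {m : ℕ} (hn : H.lvl γ ≤ m)
    (hz : z ∉ H.Tail m) : H.phi0 z γ = H.W m γ z := by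
  rw [phi0, indicator_of_mem hg]
  refine Tendsto.limUnder_eq (tendsto_const_nhds.congr' ?_)
  filter_upwards [eventually_ge_atTop m] with j hj
  exact (H.W_stable hn hj hz).symm

lemma phi0_add (z : TT n) (a b : H.Γ) : H.phi0 z (a + b) = H.phi0 z a + H.phi0 z b := by
  by_cases hg : z ∈ H.GoodPts
  · obtain ⟨m, hm, h1, h2, h3⟩ := ((show ∀ᶠ m in atTop, z ∉ H.Tail m from hg).and
      ((eventually_ge_atTop (H.lvl a)).and ((eventually_ge_atTop (H.lvl b)).and
        (eventually_ge_atTop (H.lvl (a + b)))))).exists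
    rw [H.phi0_eq hg h1 hm, H.phi0_eq hg h2 hm, H.phi0_eq hg h3 hm, H.W_add h1 h2]
  · simp [phi0, hg]

/-- The factor map onto the dual group. -/
noncomputable def phi (z : TT n) : Dual H.Γ := ⟨H.phi0 z, H.phi0_add z⟩

lemma measurable_phi : Measurable H.phi := by
  refine Measurable.subtype_mk (measurable_pi_lambda _ fun γ => ?_)
  exact (StronglyMeasurable.limUnder fun j =>
    (H.continuous_W j γ).stronglyMeasurable).measurable.indicator H.measurableSet_GoodPts

/-- Translation by the inclusion. -/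
noncomputable def rot (χ : Dual H.Γ) : Dual H.Γ :=
  ⟨fun γ => χ.1 γ + (γ : UnitAddCircle), fun a b => by
    simp only [χ.2 a b, AddSubgroup.coe_add]; abel⟩

lemma measurable_rot : Measurable H.rot := by
  refine Measurable.subtype_mk (measurable_pi_lambda _ fun γ => ?_)
  exact ((measurable_pi_apply γ).comp measurable_subtype_coe).add_const _

lemma Skew_small {γ : H.Γ} {m : ℕ} (hm : H.lvl γ ≤ m) :
    volume {z | H.W m γ (H.S z) ≠ H.W m γ z + (γ : UnitAddCircle)} ≤
      ENNReal.ofReal (2 * ((n + 1 : ℕ) * (1/2 : ℝ) ^ m)) := by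
  set K : ℕ → Set (TT n) := fun J => ⋂ j ≥ max J m, (H.Tail m ∪ H.T j ⁻¹' H.Tail m)
  have hsub : {z | H.W m γ (H.S z) ≠ H.W m γ z + (γ : UnitAddCircle)} ⊆ ⋃ J, K J := by
    intro z hz
    by_contra hcon
    apply hz
    have hfr : ∃ᶠ j in atTop, H.W m γ (H.T j z) = H.W m γ z + (γ : UnitAddCircle) := by
      rw [frequently_atTop]
      intro J
      simp only [mem_iUnion, not_exists] at hcon
      have := hcon J
      simp only [K, mem_iInter, mem_union, mem_preimage, not_forall, not_or] at this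
      obtain ⟨j, hj, h1, h2⟩ := this
      have hjm : m ≤ j := le_trans (le_max_right _ _) hj
      refine ⟨j, le_trans (le_max_left _ _) hj, ?_⟩
      rw [← H.W_stable hm hjm h2, H.W_T (hm.trans hjm), H.W_stable hm hjm h1]
    exact (isClosed_singleton (x := H.W m γ z + (γ : UnitAddCircle))).mem_of_frequently_of_tendsto
      hfr (((H.continuous_W m γ).tendsto _).comp (H.T_tendsto z))
  refine (measure_mono hsub).trans ?_
  rw [Monotone.measure_iUnion]
  · refine iSup_le fun J => ?_
    refine (measure_mono (iInter₂_subset (max J m) le_rfl)).trans ((measure_union_le _ _).trans ?_)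
    rw [(H.T_mp _).measure_preimage (H.measurableSet_Tail m).nullMeasurableSet, two_mul,
      ENNReal.ofReal_add (by positivity) (by positivity)]
    exact add_le_add (H.Tail_small m) (H.Tail_small m)
  · intro a b hab
    refine subset_iInter₂ fun j hj => iInter₂_subset j ?_
    exact le_trans (max_le_max_right m hab) hj

variable [Countable H.Γ]

lemma ae_phi_S : ∀ᵐ z ∂(volume : Measure (TT n)), H.phi (H.S z) = H.rot (H.phi z) := by
  have hsk : ∀ᵐ z ∂(volume : Measure (TT n)), ∀ γ : H.Γ, ∀ᶠ m in atTop,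
      z ∉ {z | H.lvl γ ≤ m ∧ H.W m γ (H.S z) ≠ H.W m γ z + (γ : UnitAddCircle)} := by
    rw [ae_all_iff]
    intro γ
    apply ae_eventually_notMem
    refine ne_top_of_le_ne_top ?_ (ENNReal.tsum_le_tsum
      (g := fun m => ENNReal.ofReal (2 * ((n + 1 : ℕ) * (1/2 : ℝ) ^ m))) fun m => ?_)
    · rw [← ENNReal.ofReal_tsum_of_nonneg (fun m => by positivity)
        ((summable_geometric_two.mul_left _).mul_left 2)]
      exact ENNReal.ofReal_ne_top
    · by_cases hm : H.lvl γ ≤ m
      · exact (measure_mono fun z hz => hz.2).trans (H.Skew_small hm)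
      · simp [hm]
  filter_upwards [hsk, H.ae_eventually_tail, H.S_mp.quasiMeasurePreserving.ae H.ae_eventually_tail]
    with z h1 h2 h3
  apply Subtype.ext
  funext γ
  obtain ⟨m, hn, g1, g2, g3⟩ :=
    ((eventually_ge_atTop (H.lvl γ)).and ((h1 γ).and (h2.and h3))).exists
  show H.phi0 (H.S z) γ = H.phi0 z γ + (γ : UnitAddCircle)
  rw [H.phi0_eq h3 hn g3, H.phi0_eq h2 hn g2]
  by_contra hne
  exact g1 ⟨hn, hne⟩

/-- Approximate position of the points with given character values. -/
noncomputable def invApprox (i : ℕ) (χ : Dual H.Γ) : TT n :=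
  let j := 2 * i + 1
  let x : Tr n := fun l => χ.1 ⟨H.v (j + 1) l, (H.st (j + 1)).hv l⟩
  (H.D j).e (mulT ((H.stp j).d.A' * Md (H.stp j).d.m) x,
    mulT ((H.stp j).d.U + (H.stp j).d.C * Md (H.stp j).d.m) x)

omit [Countable H.Γ] in
lemma measurable_invApprox (i : ℕ) : Measurable (H.invApprox i) := by
  refine (H.D _).e.continuous.measurable.comp ?_
  have hx : Measurable (fun χ : Dual H.Γ =>
      fun l => χ.1 ⟨H.v (2 * i + 1 + 1) l, (H.st (2 * i + 1 + 1)).hv l⟩) :=
    measurable_pi_lambda _ fun l => (measurable_pi_apply _).comp measurable_subtype_coe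
  exact ((continuous_mulT _).measurable.comp hx).prodMk ((continuous_mulT _).measurable.comp hx)

/-- The inverse map. -/
noncomputable def psiInv (χ : Dual H.Γ) : TT n := limUnder atTop (fun i => H.invApprox i χ)

omit [Countable H.Γ] in
lemma measurable_psiInv : Measurable H.psiInv :=
  (StronglyMeasurable.limUnder fun i => (H.measurable_invApprox i).stronglyMeasurable).measurable

omit [Countable H.Γ] in
lemma ae_psi_phi : ∀ᵐ z ∂(volume : Measure (TT n)), H.psiInv (H.phi z) = z := by
  filter_upwards [H.ae_eventually_tail] with z hz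
  obtain ⟨m, hm⟩ := eventually_atTop.1 hz
  have key : ∀ i ≥ m, dist z (H.invApprox i (H.phi z)) ≤ (1/2 : ℝ) ^ i := by
    intro i hi
    set j := 2 * i + 1 with hj
    have hB : z ∉ H.B j := fun hB => hm j (by omega) (mem_iUnion.2 ⟨0, by simpa using hB⟩)
    have hx : (fun l => (H.phi z).1 ⟨H.v (j + 1) l, (H.st (j + 1)).hv l⟩) = (H.pt (j + 1) z).1 := by
      funext l
      set γ : H.Γ := ⟨H.v (j + 1) l, (H.st (j + 1)).hv l⟩
      obtain ⟨t, ht1, ht2⟩ :=
        ((eventually_ge_atTop (max (j + 1) (H.lvl γ))).and (eventually_ge_atTop m)).exists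
      show H.phi0 z γ = _
      rw [H.phi0_eq hz (le_trans (le_max_right _ _) ht1) (hm t ht2)]
      have hdown : ∀ k, j + 1 ≤ k → H.W k γ z = (H.pt (j + 1) z).1 l := by
        intro k hk
        induction k, hk using Nat.le_induction with
        | base => rw [H.W_eq (c := Pi.single l 1) (psi_single _ _), psi_single]
        | succ k hk ih =>
          rw [← ih]
          obtain ⟨c, hc⟩ := H.range_mono hk ⟨Pi.single l 1, psi_single (H.v (j + 1)) l⟩
          have hkB : z ∉ H.B k := fun hB => hm k (by omega) (mem_iUnion.2 ⟨0, by simpa using hB⟩)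
          obtain ⟨y, -, hy⟩ := H.pt_fst hkB
          rw [H.W_eq (γ := γ) (j := k) hc, hy, psi_mulT, ← H.W_eq]
          rw [← psi_mulT, H.v_succ, hc]
      exact hdown t (le_trans (le_max_left _ _) ht1)
    obtain ⟨y, hy1, hy2⟩ := H.pt_fst hB
    have hd := (H.stp j).squeeze (by omega)
      (mulT ((H.stp j).d.A' * Md (H.stp j).d.m) (H.pt (j + 1) z).1,
        mulT ((H.stp j).d.U + (H.stp j).d.C * Md (H.stp j).d.m) (H.pt (j + 1) z).1) y hy1
    rw [← hy2] at hd
    have e1 : (H.st j).D.e (H.pt j z) = z := (H.D j).e.apply_symm_apply z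
    rw [e1, ← hx] at hd
    refine (show dist z (H.invApprox i (H.phi z)) ≤ (1/2 : ℝ) ^ j from hd).trans ?_
    exact pow_le_pow_of_le_one (by norm_num) (by norm_num) (by omega)
  refine Tendsto.limUnder_eq ?_
  rw [tendsto_iff_dist_tendsto_zero]
  refine squeeze_zero' (Eventually.of_forall fun _ => dist_nonneg)
    (eventually_atTop.2 ⟨m, fun j hj => by rw [dist_comm]; exact key j hj⟩)
    (tendsto_pow_atTop_nhds_zero_of_lt_one (by norm_num) (by norm_num))

end Grp

end Vale.Agent.P109.Sol
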