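import Mathlib
import Vale.Agent.P109.Sol.Model

/-! Haar measure on the dual group and the invariant conull sets of the isomorphism (P109). -/

open MeasureTheory Filter Topology Set BoundedContinuousFunction
open scoped ContDiff ENNReal ComplexConjugate

namespace Vale.Agent.P109.Sol

variable {Γ : AddSubgroup UnitAddCircle}

instance : CompactSpace (Dual Γ) := by
  refine isCompact_iff_compactSpace.1 (IsClosed.isCompact ?_)
  show IsClosed {χ : Γ → UnitAddCircle | ∀ a b, χ (a + b) = χ a + χ b}
  simp only [setOf_forall]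
  exact isClosed_iInter fun a => isClosed_iInter fun b => isClosed_eq (by fun_prop) (by fun_prop)

/-- Evaluation followed by the exponential. -/
noncomputable def ev (γ : Γ) : Dual Γ →ᵇ ℂ :=
  mkOfCompact ⟨fun χ => fourier 1 (χ.1 γ),
    (fourier 1).continuous.comp ((continuous_apply γ).comp continuous_subtype_val)⟩

lemma ev_apply (γ : Γ) (χ : Dual Γ) : ev γ χ = fourier 1 (χ.1 γ) := rfl

lemma fourier_one_add (a b : UnitAddCircle) : fourier 1 (a + b) = fourier 1 a * fourier 1 b := by
  simp [fourier_apply, AddCircle.toCircle_add, smul_add]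

lemma ev_add (a b : Γ) : ev (a + b) = ev a * ev b := by
  ext χ
  simp [ev_apply, χ.2 a b, AddCircle.toCircle_add]

lemma dual_map_zero (χ : Dual Γ) : χ.1 0 = 0 := by
  have := χ.2 0 0
  rw [add_zero] at this
  simpa using this.symm

lemma dual_map_neg (χ : Dual Γ) (a : Γ) : χ.1 (-a) = -χ.1 a := by
  have := χ.2 (-a) a
  rw [neg_add_cancel, dual_map_zero] at this
  exact eq_neg_of_add_eq_zero_left this.symm

lemma ev_zero : (ev (0 : Γ)) = 1 := by
  ext χ
  simp [ev_apply, dual_map_zero]

lemma ev_star (a : Γ) : star (ev a) = ev (-a) := by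
  ext χ
  simp [ev_apply, dual_map_neg, AddCircle.toCircle_neg]
  exact (Circle.coe_inv_eq_conj _).symm.trans (Circle.coe_inv _)

variable (Γ) in
/-- The star subalgebra spanned by the evaluations. -/
noncomputable def evAlg : StarSubalgebra ℂ (Dual Γ →ᵇ ℂ) where
  carrier := Submodule.span ℂ (range (ev (Γ := Γ)))
  mul_mem' := by
    intro f g hf hg
    have := Submodule.mul_mem_mul hf hg
    rw [Submodule.span_mul_span] at this
    refine Submodule.span_mono ?_ this
    rintro _ ⟨_, ⟨a, rfl⟩, _, ⟨b, rfl⟩, rfl⟩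
    exact ⟨a + b, ev_add a b⟩
  one_mem' := Submodule.subset_span ⟨0, ev_zero⟩
  add_mem' := fun hf hg => Submodule.add_mem _ hf hg
  zero_mem' := Submodule.zero_mem _
  algebraMap_mem' := fun c => by
    rw [Algebra.algebraMap_eq_smul_one]
    exact Submodule.smul_mem _ _ (Submodule.subset_span ⟨0, ev_zero⟩)
  star_mem' := by
    intro f hf
    refine Submodule.span_induction (p := fun f _ => star f ∈ Submodule.span ℂ (range (ev (Γ := Γ))))
      ?_ ?_ ?_ ?_ hf
    · rintro _ ⟨a, rfl⟩
      exact Submodule.subset_span ⟨-a, (ev_star a).symm⟩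
    · simp
    · intro f g _ _ hf hg
      rw [star_add]; exact Submodule.add_mem _ hf hg
    · intro c f _ hf
      rw [star_smul]; exact Submodule.smul_mem _ _ hf

lemma fourier_one_inj {a b : UnitAddCircle} (h : fourier 1 a = fourier 1 b) : a = b := by
  simp only [fourier_apply, one_smul] at h
  exact AddCircle.injective_toCircle one_ne_zero (Subtype.ext h)

variable [Countable Γ]

/-- Two probability measures invariant under the rotation agree. -/
lemma invariant_unique (μ ν : Measure (Dual Γ)) [IsProbabilityMeasure μ] [IsProbabilityMeasure ν]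
    (f : Dual Γ → Dual Γ) (hf : ∀ χ γ, (f χ).1 γ = χ.1 γ + (γ : UnitAddCircle))
    (hμ : MeasurePreserving f μ μ) (hν : MeasurePreserving f ν ν) : ν = μ := by
  have hclosed : IsClosed {χ : Γ → UnitAddCircle | ∀ a b, χ (a + b) = χ a + χ b} := by
    simp only [setOf_forall]
    exact isClosed_iInter fun a => isClosed_iInter fun b => isClosed_eq (by fun_prop) (by fun_prop)
  have : PolishSpace (Dual Γ) := hclosed.polishSpace
  have : BorelSpace (Dual Γ) := Subtype.borelSpace _
  have hint : ∀ (ρ : Measure (Dual Γ)), IsProbabilityMeasure ρ → MeasurePreserving f ρ ρ →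
      ∀ γ : Γ, ∫ χ, ev γ χ ∂ρ = if γ = 0 then 1 else 0 := by
    intro ρ hρ hfρ γ
    by_cases h : γ = 0
    · subst h
      rw [if_pos rfl, ev_zero]
      simp
    · rw [if_neg h]
      have h1 : ∫ χ, ev γ χ ∂ρ = fourier 1 (γ : UnitAddCircle) * ∫ χ, ev γ χ ∂ρ := by
        conv_lhs => rw [← hfρ.map_eq]
        rw [integral_map hfρ.measurable.aemeasurable (ev γ).continuous.aestronglyMeasurable,
          ← integral_const_mul]
        congr 1
        funext χ
        rw [ev_apply, hf, fourier_one_add, mul_comm]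
        rfl
      have hne : fourier 1 (γ : UnitAddCircle) ≠ 1 := by
        intro h'
        apply h
        apply Subtype.ext
        refine fourier_one_inj ?_
        rw [h']
        simp
      by_contra h0
      exact hne ((mul_eq_right₀ h0).1 h1.symm)
  refine ext_of_forall_mem_subalgebra_integral_eq_of_polish (A := evAlg Γ) ?_ fun g hg => ?_
  · intro x y hxy
    obtain ⟨γ, hγ⟩ : ∃ γ, x.1 γ ≠ y.1 γ := by
      by_contra hcon
      push Not at hcon
      exact hxy (Subtype.ext (funext hcon))
    refine ⟨_, ⟨(ev γ).toContinuousMap, ⟨ev γ, Submodule.subset_span ⟨γ, rfl⟩, rfl⟩, rfl⟩, ?_⟩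
    exact fun h => hγ (fourier_one_inj h)
  · refine Submodule.span_induction (p := fun g _ => ∫ χ, g χ ∂ν = ∫ χ, g χ ∂μ) ?_ ?_ ?_ ?_ hg
    · rintro _ ⟨a, rfl⟩
      rw [hint ν inferInstance hν a, hint μ inferInstance hμ a]
    · simp
    · intro u w _ _ hu hw
      simp only [BoundedContinuousFunction.coe_add, Pi.add_apply]
      rw [integral_add (u.integrable ν) (w.integrable ν), integral_add (u.integrable μ) (w.integrable μ),
        hu, hw]
    · intro c u _ hu
      simp only [BoundedContinuousFunction.coe_smul]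
      rw [integral_smul, integral_smul, hu]

/-- A conull set contains a conull set invariant under a measure preserving homeomorphism. -/
lemma invariant_core {n : ℕ} (f : TT n ≃ₜ TT n) (hf : MeasurePreserving f volume volume)
    (A : Set (TT n)) (hAm : MeasurableSet A) (hAc : volume Aᶜ = 0) :
    ∃ R, MeasurableSet R ∧ volume Rᶜ = 0 ∧ R ⊆ A ∧ (∀ z ∈ R, f z ∈ R) ∧
      (∀ z ∈ R, f.symm z ∈ R) := by
  have hsymm : MeasurePreserving f.symm volume volume :=
    MeasurePreserving.symm f.toMeasurableEquiv hf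
  set g : ℤ → TT n → TT n := fun k => if 0 ≤ k then f^[k.toNat] else f.symm^[(-k).toNat] with hg
  have hgmp : ∀ k, MeasurePreserving (g k) volume volume := by
    intro k; simp only [hg]; split_ifs
    exacts [hf.iterate _, hsymm.iterate _]
  have hstep : ∀ k z, g k (f z) = g (k + 1) z := by
    intro k z
    simp only [hg]
    rcases lt_trichotomy k (-1) with h | rfl | h
    · rw [if_neg (by omega), if_neg (by omega),
        show (-k).toNat = (-(k + 1)).toNat + 1 by omega, Function.iterate_succ_apply,
        Homeomorph.symm_apply_apply]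
    · simp
    · rw [if_pos (by omega), if_pos (by omega), show (k + 1).toNat = k.toNat + 1 by omega,
        Function.iterate_succ_apply]
  refine ⟨⋂ k, g k ⁻¹' A, MeasurableSet.iInter fun k => (hgmp k).measurable hAm, ?_, ?_, ?_, ?_⟩
  · rw [compl_iInter]
    refine measure_iUnion_null fun k => ?_
    rw [← preimage_compl, (hgmp k).measure_preimage hAm.compl.nullMeasurableSet, hAc]
  · intro z hz
    simpa [hg] using mem_iInter.1 hz 0
  · intro z hz
    refine mem_iInter.2 fun k => ?_
    rw [mem_preimage, hstep]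
    exact mem_iInter.1 hz (k + 1)
  · intro z hz
    refine mem_iInter.2 fun k => ?_
    rw [mem_preimage]
    have e := hstep (k - 1) (f.symm z)
    rw [Homeomorph.apply_symm_apply, sub_add_cancel] at e
    rw [← e]
    exact mem_iInter.1 hz (k - 1)

namespace Grp

variable {n : ℕ} (H : Grp n) [Countable H.Γ]

/-- Haar measure of the dual group, as the image of volume. -/
noncomputable def mu : Measure (Dual H.Γ) := Measure.map H.phi volume

omit [Countable H.Γ] in
lemma phi_mp : MeasurePreserving H.phi volume H.mu := ⟨H.measurable_phi, rfl⟩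

omit [Countable H.Γ] in
lemma isProb_mu : IsProbabilityMeasure H.mu :=
  Measure.isProbabilityMeasure_map H.measurable_phi.aemeasurable

lemma rot_mp : MeasurePreserving H.rot H.mu H.mu := by
  refine ⟨H.measurable_rot, ?_⟩
  rw [mu, Measure.map_map H.measurable_rot H.measurable_phi]
  have e : (H.rot ∘ H.phi) =ᵐ[volume] (H.phi ∘ H.S) := by
    filter_upwards [H.ae_phi_S] with z hz
    exact hz.symm
  rw [Measure.map_congr e, ← Measure.map_map H.measurable_phi H.S.continuous.measurable,
    H.S_mp.map_eq]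

lemma mu_unique (f : Dual H.Γ → Dual H.Γ) (hf : ∀ χ γ, (f χ).1 γ = χ.1 γ + (γ : UnitAddCircle))
    (ν : Measure (Dual H.Γ)) [IsProbabilityMeasure ν] (hν : MeasurePreserving f ν ν) : ν = H.mu := by
  have := H.isProb_mu
  have e : f = H.rot := funext fun χ => Subtype.ext (funext fun γ => hf χ γ)
  subst e
  exact invariant_unique H.mu ν H.rot hf H.rot_mp hν

lemma mu_translation (h : Dual H.Γ) (f : Dual H.Γ → Dual H.Γ)
    (hf : ∀ χ γ, (f χ).1 γ = χ.1 γ + h.1 γ) : MeasurePreserving f H.mu H.mu := by
  have hfm : Measurable f := by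
    have e : (fun χ => (f χ).1) = fun χ γ => χ.1 γ + h.1 γ := funext fun χ => funext fun γ => hf χ γ
    have : Measurable fun χ => (f χ).1 := by
      rw [e]
      exact measurable_pi_lambda _ fun γ =>
        ((measurable_pi_apply γ).comp measurable_subtype_coe).add_const _
    exact this.subtype_mk (h := fun χ => (f χ).2)
  have := H.isProb_mu
  have : IsProbabilityMeasure (Measure.map f H.mu) :=
    Measure.isProbabilityMeasure_map hfm.aemeasurable
  refine ⟨hfm, H.mu_unique H.rot (fun _ _ => rfl) _ ⟨H.measurable_rot, ?_⟩⟩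
  have e : H.rot ∘ f = f ∘ H.rot := by
    funext χ
    refine Subtype.ext (funext fun γ => ?_)
    show (f χ).1 γ + (γ : UnitAddCircle) = (f (H.rot χ)).1 γ
    rw [hf, hf]
    show _ = χ.1 γ + (γ : UnitAddCircle) + h.1 γ
    abel
  rw [Measure.map_map H.measurable_rot hfm, e, ← Measure.map_map hfm H.measurable_rot,
    H.rot_mp.map_eq]

/-- The two conull invariant sets carrying the isomorphism. -/
lemma exists_iso : ∃ (X0 : Set (Dual H.Γ)) (M0 : Set (TT n)),
    MeasurableSet X0 ∧ MeasurableSet M0 ∧ H.mu X0ᶜ = 0 ∧ volume M0ᶜ = 0 ∧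
    H.rot '' X0 = X0 ∧ H.S '' M0 = M0 ∧ BijOn H.psiInv X0 M0 ∧ InvOn H.phi H.psiInv X0 M0 ∧
    MeasurePreserving H.psiInv H.mu volume ∧
    (∀ x ∈ X0, H.psiInv (H.rot x) = H.S (H.psiInv x)) := by
  set A : Set (TT n) := {z | H.psiInv (H.phi z) = z} ∩ {z | H.phi (H.S z) = H.rot (H.phi z)}
  have hmeq : ∀ {α : Type} [MeasurableSpace α] (F G : α → Dual H.Γ), Measurable F → Measurable G →
      MeasurableSet {a | F a = G a} := by
    intro α _ F G hF hG
    have e : {a | F a = G a} = ⋂ γ, {a | (F a).1 γ = (G a).1 γ} := by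
      ext a
      simp only [mem_iInter]
      exact ⟨fun h γ => congrArg (fun x : Dual H.Γ => x.1 γ) h, fun h => Subtype.ext (funext h)⟩
    rw [e]
    exact MeasurableSet.iInter fun γ => measurableSet_eq_fun
      ((measurable_pi_apply γ).comp (measurable_subtype_coe.comp hF))
      ((measurable_pi_apply γ).comp (measurable_subtype_coe.comp hG))
  have hAm : MeasurableSet A :=
    (measurableSet_eq_fun (H.measurable_psiInv.comp H.measurable_phi) measurable_id).inter
      (hmeq (fun z => H.phi (H.S z)) (fun z => H.rot (H.phi z))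
        (H.measurable_phi.comp H.S.continuous.measurable) (H.measurable_rot.comp H.measurable_phi))
  have hAc : volume Aᶜ = 0 := mem_ae_iff.1 (H.ae_psi_phi.and H.ae_phi_S)
  obtain ⟨R, hRm, hRc, hRA, hRS, hRS'⟩ := invariant_core H.S H.S_mp A hAm hAc
  set X0 : Set (Dual H.Γ) := H.psiInv ⁻¹' R ∩ {x | H.phi (H.psiInv x) = x}
  have hmapR : ∀ z ∈ R, H.phi z ∈ X0 := by
    intro z hz
    have e : H.psiInv (H.phi z) = z := (hRA hz).1
    exact ⟨by rw [mem_preimage, e]; exact hz, congrArg H.phi e⟩
  have hsucc : ∀ x ∈ X0, H.rot x = H.phi (H.S (H.psiInv x)) := by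
    rintro x ⟨h1, h2⟩
    rw [(hRA h1).2, h2]
  have hXm : MeasurableSet X0 := (H.measurable_psiInv hRm).inter
    (hmeq (fun x => H.phi (H.psiInv x)) id (H.measurable_phi.comp H.measurable_psiInv) measurable_id)
  have hXc : H.mu X0ᶜ = 0 := by
    rw [mu, Measure.map_apply H.measurable_phi hXm.compl]
    exact measure_mono_null (fun z hz hzR => hz (hmapR z hzR)) hRc
  refine ⟨X0, R, hXm, hRm, hXc, hRc, ?_, ?_, ?_, ?_, ?_, ?_⟩
  · ext x
    constructor
    · rintro ⟨y, hy, rfl⟩
      rw [hsucc y hy]; exact hmapR _ (hRS _ hy.1)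
    · intro hx
      refine ⟨H.phi (H.S.symm (H.psiInv x)), hmapR _ (hRS' _ hx.1), ?_⟩
      rw [← (hRA (hRS' _ hx.1)).2, Homeomorph.apply_symm_apply]
      exact hx.2
  · ext z
    constructor
    · rintro ⟨y, hy, rfl⟩; exact hRS y hy
    · intro hz; exact ⟨H.S.symm z, hRS' z hz, H.S.apply_symm_apply z⟩
  · exact InvOn.bijOn (f' := H.phi) ⟨fun x hx => hx.2, fun z hz => (hRA hz).1⟩
      (fun x hx => hx.1) hmapR
  · exact ⟨fun x hx => hx.2, fun z hz => (hRA hz).1⟩
  · refine ⟨H.measurable_psiInv, ?_⟩
    rw [mu, Measure.map_map H.measurable_psiInv H.measurable_phi]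
    exact (Measure.map_congr H.ae_psi_phi).trans Measure.map_id
  · intro x hx
    rw [hsucc x hx]
    exact (hRA (hRS _ hx.1)).1

end Grp

end Vale.Agent.P109.Sol
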